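import Vale.Agent.P237.AllN.Defs

/-!
# Polytopes between a shrunken body and the body
-/

namespace Vale.Agent.P237.AllN

open MeasureTheory Set
open scoped RealInnerProductSpace Pointwise

variable {E : Type*} [NormedAddCommGroup E] [InnerProductSpace ℝ E] [FiniteDimensional ℝ E]

/-- A body with the origin inside contains a polytope containing any shrunken copy. -/
theorem exists_poly_between {K : Set E} (hK : IsCompact K) (hKc : Convex ℝ K)
    (h0 : (0 : E) ∈ interior K) {r : ℝ} (hr0 : 0 < r) (hr1 : r < 1) :
    ∃ (s : Finset E) (b : E → ℝ), (∀ v ∈ s, ‖v‖ = 1) ∧ (∀ v ∈ s, 0 < b v) ∧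
      IsCompact (poly s b) ∧ r • K ⊆ poly s b ∧ poly s b ⊆ K := by
  classical
  set K' := r • K
  have hK' : IsCompact K' := hK.smul r
  have hK'c : Convex ℝ K' := hKc.smul r
  have hsub : K' ⊆ interior K := by
    rintro _ ⟨y, hy, rfl⟩
    simpa using hKc.combo_interior_self_mem_interior h0 hy (sub_pos.2 hr1) hr0.le (by ring)
  set b : E → ℝ := fun v => sSup ((fun x => ⟪v, x⟫) '' K')
  have hbdd : ∀ v, BddAbove ((fun x => ⟪v, x⟫) '' K') := fun v =>
    (hK'.image (continuous_const.inner continuous_id)).bddAbove
  have hb : ∀ v, ∀ x ∈ K', ⟪v, x⟫ ≤ b v := fun v x hx =>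
    le_csSup (hbdd v) (mem_image_of_mem _ hx)
  have hne : K'.Nonempty := ⟨_, smul_mem_smul_set (interior_subset h0)⟩
  have hbpos : ∀ v : E, v ≠ 0 → 0 < b v := by
    intro v hv
    obtain ⟨δ, hδ, hball⟩ := Metric.mem_nhds_iff.1 (isOpen_interior.mem_nhds h0)
    have hv' := norm_pos_iff.2 hv
    have hmem : (δ / 2 / ‖v‖) • v ∈ K := interior_subset (hball (by
      rw [mem_ball_zero_iff, norm_smul, Real.norm_eq_abs, abs_of_pos (by positivity),
        div_mul_cancel₀ _ hv'.ne']
      linarith))
    refine lt_of_lt_of_le ?_ (hb v _ (smul_mem_smul_set hmem))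
    rw [real_inner_smul_right, real_inner_smul_right, real_inner_self_eq_norm_sq]
    positivity
  have hsep : ∀ y ∈ frontier K, ∃ v : E, ‖v‖ = 1 ∧ b v < ⟪v, y⟫ := by
    intro y hy
    obtain ⟨f, c, hf, hfy⟩ := geometric_hahn_banach_closed_point hK'c hK'.isClosed
      (fun hy' => hy.2 (hsub hy'))
    set w := (InnerProductSpace.toDual ℝ E).symm f
    have hw : ∀ a, ⟪w, a⟫ = f a := fun a => InnerProductSpace.toDual_symm_apply
    have hw0 : w ≠ 0 := by
      intro h
      obtain ⟨a, ha⟩ := hne
      have h1 := hf a ha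
      rw [← hw, h, inner_zero_left] at h1
      rw [← hw, h, inner_zero_left] at hfy
      linarith
    refine ⟨‖w‖⁻¹ • w, norm_smul_inv_norm hw0, lt_of_le_of_lt (b := ‖w‖⁻¹ * c) ?_ ?_⟩
    · refine csSup_le (hne.image _) ?_
      rintro _ ⟨a, ha, rfl⟩
      simp only
      rw [real_inner_smul_left, hw]
      exact mul_le_mul_of_nonneg_left (hf a ha).le (inv_nonneg.2 (norm_nonneg _))
    · rw [real_inner_smul_left, hw]
      exact mul_lt_mul_of_pos_left hfy (inv_pos.2 (norm_pos_iff.2 hw0))
  choose! g hg1 hg2 using hsep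
  obtain ⟨t, ht, hcov⟩ := (hK.of_isClosed_subset isClosed_frontier
    hK.isClosed.frontier_subset).elim_nhds_subcover (fun y => {x | b (g y) < ⟪g y, x⟫}) fun y hy =>
      (isOpen_lt continuous_const (continuous_const.inner continuous_id)).mem_nhds (hg2 y hy)
  have hs1 : ∀ v ∈ t.image g, ‖v‖ = 1 := fun v hv => by
    obtain ⟨y, hy, rfl⟩ := Finset.mem_image.1 hv
    exact hg1 y (ht y hy)
  have hpos : ∀ v ∈ t.image g, 0 < b v := fun v hv =>
    hbpos v (norm_ne_zero_iff.1 (by simp [hs1 v hv]))
  have hPK : poly (t.image g) b ⊆ K := by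
    intro x hx
    by_contra hxK
    -- where the segment from the origin to `x` leaves the body
    set J := {l : ℝ | l • x ∈ K} ∩ Icc 0 1
    have hJc : IsCompact J :=
      isCompact_Icc.inter_left (hK.isClosed.preimage (continuous_id.smul continuous_const))
    obtain ⟨l, hl, hmax⟩ := hJc.exists_isGreatest ⟨0, by simpa using interior_subset h0, by simp⟩
    have hl1 : l < 1 := lt_of_le_of_ne hl.2.2 fun h => hxK (by simpa [h] using hl.1)
    have hfr : l • x ∈ frontier K := by
      refine ⟨subset_closure hl.1, fun hi => ?_⟩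
      obtain ⟨δ, hδ, hball⟩ := Metric.mem_nhds_iff.1
        ((isOpen_interior.preimage (show Continuous fun k : ℝ => k • x by fun_prop)).mem_nhds hi)
      set m := min (δ / 2) (1 - l)
      have hm : 0 < m := lt_min (by linarith) (by linarith)
      have h2 : l + m ∈ J := by
        have hm1 : m ≤ δ / 2 := min_le_left _ _
        have hm2 : m ≤ 1 - l := min_le_right _ _
        have hb' : l + m ∈ Metric.ball l δ := by
          rw [Metric.mem_ball, Real.dist_eq, add_sub_cancel_left, abs_of_pos hm]
          linarith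
        refine ⟨interior_subset (s := K) (hball hb'), ?_, ?_⟩
        · linarith [hl.2.1]
        · linarith
      linarith [hmax h2]
    obtain ⟨y, hy, hxy⟩ := mem_iUnion₂.1 (hcov hfr)
    have h1 := hx (g y) (Finset.mem_image_of_mem g hy)
    have h2 := hpos (g y) (Finset.mem_image_of_mem g hy)
    rw [mem_ofPred_eq, real_inner_smul_right] at hxy
    nlinarith [hl.2.1]
  exact ⟨t.image g, b, hs1, hpos, hK.of_isClosed_subset (isClosed_poly _ _) hPK,
    fun x hx v _ => hb v x hx, hPK⟩

variable [MeasurableSpace E] [BorelSpace E]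

theorem area_translate (a : E) (K : Set E) (u : E) :
    area ((fun x => a + x) '' K) u = area K u := by
  unfold area
  rw [image_image]
  simp only [map_add]
  rw [← image_image (g := fun y => (ℝ ∙ u)ᗮ.orthogonalProjectionOnto a + y)
    (f := (ℝ ∙ u)ᗮ.orthogonalProjectionOnto), measureReal_def, image_add_left,
    measure_preimage_add, ← measureReal_def]

theorem projBody_translate (a : E) (K : Set E) : projBody ((fun x => a + x) '' K) = projBody K := by
  simp only [projBody, area_translate]

open Filter Topology Module in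
/-- A bound for polytopes gives the bound for all compact convex sets. -/
theorem body_of_poly (h2 : 2 ≤ finrank ℝ E) {C : ℝ}
    (H : ∀ (s : Finset E) (b : E → ℝ), (∀ v ∈ s, ‖v‖ = 1) → (∀ v ∈ s, 0 < b v) →
      IsCompact (poly s b) →
      C * volume.real (poly s b) ^ (finrank ℝ E - 1) ≤ volume.real (projBody (poly s b)))
    (hC : 0 ≤ C) {K : Set E} (hK : IsCompact K) (hKc : Convex ℝ K) :
    C * volume.real K ^ (finrank ℝ E - 1) ≤ volume.real (projBody K) := by
  by_cases hi : (interior K).Nonempty
  swap
  · have h0 : volume K = 0 := by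
      refine measure_mono_null (fun x hx => ?_) (hKc.addHaar_frontier volume)
      exact ⟨subset_closure hx, fun h => hi ⟨x, h⟩⟩
    rw [measureReal_def (s := K), h0, ENNReal.toReal_zero, zero_pow (by omega), mul_zero]
    exact measureReal_nonneg
  obtain ⟨x₀, hx₀⟩ := hi
  set K₀ := (fun x => -x₀ + x) '' K
  have hK₀ : IsCompact K₀ := hK.image (by fun_prop)
  have h0 : (0 : E) ∈ interior K₀ := by
    refine interior_maximal (image_mono interior_subset) ?_ ⟨x₀, hx₀, neg_add_cancel x₀⟩
    exact isOpenMap_add_left _ _ isOpen_interior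
  have hV : volume.real K₀ = volume.real K := by
    simp only [K₀, measureReal_def, image_add_left, measure_preimage_add]
  rw [← hV, ← projBody_translate (-x₀) K]
  set r : ℕ → ℝ := fun k => 1 - 1 / (k + 2 : ℝ)
  have hk : ∀ k : ℕ, C * (r k ^ finrank ℝ E * volume.real K₀) ^ (finrank ℝ E - 1)
      ≤ volume.real (projBody K₀) := by
    intro k
    have h1 : 0 < 1 / (k + 2 : ℝ) := by positivity
    have h2' : 1 / (k + 2 : ℝ) < 1 := by
      rw [div_lt_one (by positivity)]
      linarith [(Nat.cast_nonneg k : (0 : ℝ) ≤ k)]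
    have hr0 : 0 < r k := by simp only [r]; linarith
    obtain ⟨s, b, hs, hb, hc, hin, hout⟩ :=
      exists_poly_between hK₀ (hKc.translate (-x₀)) h0 hr0 (by simp only [r]; linarith)
    have hvol : volume.real (r k • K₀) = r k ^ finrank ℝ E * volume.real K₀ := by
      rw [measureReal_def, Measure.addHaar_smul, ENNReal.toReal_mul,
        ENNReal.toReal_ofReal (abs_nonneg _), abs_of_nonneg (by positivity), ← measureReal_def]
    rw [← hvol]
    refine le_trans ?_ ((H s b hs hb hc).trans (measureReal_mono (projBody_mono hK₀ hout)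
      (isCompact_projBody K₀).measure_lt_top.ne))
    exact mul_le_mul_of_nonneg_left
      (pow_le_pow_left₀ measureReal_nonneg (measureReal_mono hin hc.measure_lt_top.ne) _) hC
  refine le_of_tendsto' (x := atTop) ?_ hk
  have hr : Tendsto r atTop (𝓝 1) := by
    have h := (tendsto_add_atTop_iff_nat 1).2
      (tendsto_one_div_add_atTop_nhds_zero_nat (𝕜 := ℝ))
    have e : r = fun k : ℕ => 1 - 1 / (((k + 1 : ℕ) : ℝ) + 1) := by
      funext k; simp only [r]; push_cast; ring
    rw [e]
    simpa using h.const_sub 1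
  simpa using (((hr.pow (finrank ℝ E)).mul_const (volume.real K₀)).pow
    (finrank ℝ E - 1)).const_mul C

/-- In a line the length of a convex set is at least the distance of its points. -/
theorem dist_le_length {V : Type*} [NormedAddCommGroup V] [InnerProductSpace ℝ V]
    [FiniteDimensional ℝ V] [MeasurableSpace V] [BorelSpace V] (h1 : Module.finrank ℝ V = 1)
    {S : Set V} (hS : IsCompact S) (hSc : Convex ℝ S) {p q : V} (hp : p ∈ S) (hq : q ∈ S) :
    ‖p - q‖ ≤ volume.real S := by
  set o := (stdOrthonormalBasis ℝ V).reindex (finCongr h1)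
  set g : V → ℝ := fun y => o.repr y 0
  have hg : MeasurePreserving g := by
    have h := ((volume_preserving_funUnique (Fin 1) ℝ).comp
      (PiLp.volume_preserving_ofLp (Fin 1))).comp o.measurePreserving_repr
    exact h
  have hgi : Function.Injective g := fun a b h => o.repr.injective (by
    ext i; rw [Subsingleton.elim i 0]; exact h)
  have hgc : Continuous g := by fun_prop
  rw [measureReal_def, ← hgi.preimage_image (s := S),
    hg.measure_preimage (hS.image hgc).measurableSet.nullMeasurableSet, ← measureReal_def]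
  have hI : Convex ℝ (g '' S) :=
    hSc.is_linear_image ⟨fun a b => by simp [g], fun c a => by simp [g]⟩
  have hsub : uIcc (g p) (g q) ⊆ g '' S :=
    hI.ordConnected.uIcc_subset (mem_image_of_mem g hp) (mem_image_of_mem g hq)
  refine le_trans (le_of_eq ?_) (measureReal_mono hsub (hS.image hgc).measure_lt_top.ne)
  rw [measureReal_def, Real.volume_interval, ENNReal.toReal_ofReal (abs_nonneg _),
    ← o.repr.norm_map, EuclideanSpace.norm_eq, Fin.sum_univ_one, Real.sqrt_sq (norm_nonneg _)]
  simp only [g, map_sub, PiLp.sub_apply, Real.norm_eq_abs]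
  exact abs_sub_comm _ _

open Module in
/-- The planar case. -/
theorem planar (h2 : finrank ℝ E = 2) {K : Set E} (hK : IsCompact K) (hKc : Convex ℝ K) :
    4 * volume.real K ≤ volume.real (projBody K) := by
  have : Fact (finrank ℝ E = 2) := ⟨h2⟩
  have : Nontrivial E := nontrivial_of_finrank_pos (R := ℝ) (by omega)
  rcases K.eq_empty_or_nonempty with rfl | hne
  · simp [measureReal_def]
  set o : Orientation ℝ E (Fin 2) :=
    ((stdOrthonormalBasis ℝ E).reindex (finCongr h2)).toBasis.orientation
  set J := o.rightAngleRotation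
  set D := K + -K
  have hD : IsCompact D := hK.add hK.neg
  have hsub : J '' D ⊆ projBody K := by
    rintro _ ⟨_, ⟨a, ha, b, hb, rfl⟩, rfl⟩ u hu
    have hb' : -b ∈ K := by simpa using hb
    set π := (ℝ ∙ u)ᗮ.orthogonalProjectionOnto
    have : Fact (finrank ℝ E = 1 + 1) := ⟨h2⟩
    have h1 : finrank ℝ (ℝ ∙ u)ᗮ = 1 :=
      Submodule.finrank_orthogonal_span_singleton (norm_ne_zero_iff.1 (by simp [hu]))
    refine le_trans ?_ (dist_le_length h1 (hK.image π.continuous)
      (hKc.linear_image (π : E →ₗ[ℝ] (ℝ ∙ u)ᗮ)) (mem_image_of_mem π ha) (mem_image_of_mem π hb'))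
    rw [← map_sub, sub_neg_eq_add]
    set d := a + b
    have h4 : ‖π d‖ ^ 2 = ‖d‖ ^ 2 - ⟪u, d⟫ ^ 2 := by
      have h5 := Submodule.norm_sq_eq_add_norm_sq_starProjection d (ℝ ∙ u)
      rw [Submodule.starProjection_unit_singleton ℝ hu, norm_smul, hu, mul_one, Real.norm_eq_abs,
        sq_abs, Submodule.starProjection_apply] at h5
      change ‖(π d : E)‖ ^ 2 = _
      linarith
    have h6 := o.inner_sq_add_areaForm_sq d u
    rw [hu, one_pow, mul_one, real_inner_comm] at h6
    rw [Orientation.inner_rightAngleRotation_left]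
    refine (le_abs_self _).trans ?_
    rw [← abs_of_nonneg (norm_nonneg (π d))]
    exact sq_le_sq.1 (by linarith)
  have h3 : 4 * volume.real K ≤ volume.real D := by
    have hadd := vroot_add hK hK.neg hne hne.neg
    have hneg : vroot (-K) = vroot K := by
      rw [vroot, vroot, measureReal_def, measureReal_def, Measure.measure_neg]
    rw [hneg] at hadd
    have h := pow_le_pow_left₀ (add_nonneg (vroot_nonneg K) (vroot_nonneg K)) hadd (finrank ℝ E)
    rw [vroot_pow, h2] at h
    rw [← vroot_pow K, h2]
    linarith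
  refine h3.trans ((le_of_eq ?_).trans
    (measureReal_mono hsub (isCompact_projBody K).measure_lt_top.ne))
  rw [measureReal_def, measureReal_def, ← J.measurePreserving.measure_preimage
    (hD.image J.continuous).measurableSet.nullMeasurableSet, J.injective.preimage_image]

end Vale.Agent.P237.AllN
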