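import Mathlib
import Vale.Agent.P074.BM

/-!
# Brunn–Minkowski in additive form
-/

namespace Vale.Agent.P237.AllN

open MeasureTheory Set Module
open scoped Pointwise

variable {E : Type*} [NormedAddCommGroup E] [InnerProductSpace ℝ E] [FiniteDimensional ℝ E]
  [MeasurableSpace E] [BorelSpace E]

/-- The volume to the power one over the dimension. -/
noncomputable def vroot (X : Set E) : ℝ := volume.real X ^ ((finrank ℝ E : ℝ)⁻¹)

theorem vroot_nonneg (X : Set E) : 0 ≤ vroot X := Real.rpow_nonneg measureReal_nonneg _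

theorem vroot_pow [Nontrivial E] (X : Set E) : vroot X ^ finrank ℝ E = volume.real X :=
  Real.rpow_inv_natCast_pow measureReal_nonneg (finrank_pos.ne')

theorem vroot_mono {X Y : Set E} (hY : IsCompact Y) (h : X ⊆ Y) : vroot X ≤ vroot Y :=
  Real.rpow_le_rpow measureReal_nonneg (measureReal_mono h hY.measure_lt_top.ne)
    (inv_nonneg.2 (Nat.cast_nonneg _))

theorem vroot_smul [Nontrivial E] {r : ℝ} (hr : 0 ≤ r) (X : Set E) :
    vroot (r • X) = r * vroot X := by
  rw [vroot, vroot, measureReal_def, Measure.addHaar_smul, ENNReal.toReal_mul,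
    ENNReal.toReal_ofReal (abs_nonneg _), abs_of_nonneg (pow_nonneg hr _), ← measureReal_def,
    Real.mul_rpow (pow_nonneg hr _) measureReal_nonneg,
    Real.pow_rpow_inv_natCast hr (finrank_pos.ne')]

/-- Multiplicative Brunn–Minkowski on a Euclidean space given abstractly. -/
theorem bm_inner {s : ℝ} (h0 : 0 < s) (h1 : s < 1) {A B C : Set E} (hA : IsCompact A)
    (hB : IsCompact B) (hC : IsCompact C) (hsub : ∀ a ∈ A, ∀ b ∈ B, (1 - s) • a + s • b ∈ C) :
    volume A ^ (1 - s) * volume B ^ s ≤ volume C := by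
  set e := (stdOrthonormalBasis ℝ E).repr with he
  have hv : ∀ X : Set E, IsCompact X → volume (e '' X) = volume X := fun X hX => by
    rw [← e.measurePreserving.measure_preimage (hX.image e.continuous).measurableSet.nullMeasurableSet,
      e.injective.preimage_image]
  rw [← hv A hA, ← hv B hB, ← hv C hC]
  refine P074.BM.bm_euclidean h0 h1 (hA.image e.continuous) (hB.image e.continuous)
    (hC.image e.continuous) ?_
  rintro _ ⟨a, ha, rfl⟩ _ ⟨b, hb, rfl⟩
  exact ⟨_, hsub a ha b hb, by simp⟩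

/-- Brunn–Minkowski, additive form. -/
theorem vroot_add [Nontrivial E] {A B : Set E} (hA : IsCompact A) (hB : IsCompact B)
    (hAn : A.Nonempty) (hBn : B.Nonempty) : vroot A + vroot B ≤ vroot (A + B) := by
  have hAB : IsCompact (A + B) := hA.add hB
  have hn0 : ((finrank ℝ E : ℝ)⁻¹) ≠ 0 := inv_ne_zero (Nat.cast_ne_zero.2 finrank_pos.ne')
  rcases (vroot_nonneg A).eq_or_lt with ha | ha
  · obtain ⟨a, haA⟩ := hAn
    rw [← ha, zero_add]
    calc vroot B = vroot (a +ᵥ B) := by rw [vroot, vroot, measureReal_def, measureReal_def, measure_vadd]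
      _ ≤ _ := vroot_mono hAB (vadd_set_subset_iff.2 fun b hb => add_mem_add haA hb)
  rcases (vroot_nonneg B).eq_or_lt with hb | hb
  · obtain ⟨b, hbB⟩ := hBn
    rw [← hb, add_zero]
    calc vroot A = vroot (b +ᵥ A) := by rw [vroot, vroot, measureReal_def, measureReal_def, measure_vadd]
      _ ≤ _ := vroot_mono hAB (vadd_set_subset_iff.2 fun x hx => by
            rw [vadd_eq_add, add_comm b x]; exact add_mem_add hx hbB)
  set a := vroot A
  set b := vroot B
  have hab : 0 < a + b := add_pos ha hb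
  have hs0 : 0 < b / (a + b) := div_pos hb hab
  have hs1 : b / (a + b) < 1 := (div_lt_one hab).2 (by linarith)
  have h := bm_inner hs0 hs1 (hA.smul a⁻¹) (hB.smul b⁻¹) (hAB.smul (a + b)⁻¹) (by
    rintro _ ⟨x, hx, rfl⟩ _ ⟨y, hy, rfl⟩
    refine ⟨x + y, add_mem_add hx hy, ?_⟩
    simp only [smul_smul, smul_add]
    rw [show (1 - b / (a + b)) * a⁻¹ = (a + b)⁻¹ by field_simp; ring,
      show b / (a + b) * b⁻¹ = (a + b)⁻¹ by field_simp])
  have hone : ∀ X : Set E, IsCompact X → 0 < vroot X → volume ((vroot X)⁻¹ • X) = 1 := by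
    intro X hX hpos
    have e : vroot ((vroot X)⁻¹ • X) = 1 := by
      rw [vroot_smul (inv_nonneg.2 hpos.le), inv_mul_cancel₀ hpos.ne']
    have := vroot_pow ((vroot X)⁻¹ • X)
    rw [e, one_pow, measureReal_def] at this
    exact (ENNReal.toReal_eq_one_iff _).1 this.symm
  rw [hone A hA ha, hone B hB hb, ENNReal.one_rpow, ENNReal.one_rpow, one_mul] at h
  have h2 : (1 : ℝ) ≤ vroot ((a + b)⁻¹ • (A + B)) := by
    refine Real.one_le_rpow ?_ (inv_nonneg.2 (Nat.cast_nonneg _))
    rw [measureReal_def, ← ENNReal.toReal_one]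
    exact ENNReal.toReal_mono (hAB.smul _).measure_lt_top.ne h
  rw [vroot_smul (inv_nonneg.2 hab.le), le_inv_mul_iff₀ hab, mul_one] at h2
  exact h2

/-- Brunn–Minkowski for a finite sum of sets. -/
theorem vroot_sum [Nontrivial E] {ι : Type*} (s : Finset ι) (A : ι → Set E)
    (hA : ∀ i ∈ s, IsCompact (A i)) (hn : ∀ i ∈ s, (A i).Nonempty) :
    IsCompact (∑ i ∈ s, A i) ∧ (∑ i ∈ s, A i).Nonempty ∧
      ∑ i ∈ s, vroot (A i) ≤ vroot (∑ i ∈ s, A i) := by
  classical
  induction s using Finset.induction with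
  | empty =>
    rw [Finset.sum_empty, Finset.sum_empty]
    exact ⟨isCompact_singleton, ⟨0, rfl⟩, vroot_nonneg _⟩
  | insert i s hi ih =>
    obtain ⟨hc, hne, hle⟩ := ih (fun j hj => hA j (Finset.mem_insert_of_mem hj))
      (fun j hj => hn j (Finset.mem_insert_of_mem hj))
    have h1 := hA i (Finset.mem_insert_self i s)
    have h2 := hn i (Finset.mem_insert_self i s)
    rw [Finset.sum_insert hi, Finset.sum_insert hi]
    refine ⟨h1.add hc, h2.add hne, ?_⟩
    linarith [vroot_add h1 hc h2 hne]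

/-- Brunn–Minkowski for convex combinations. -/
theorem vroot_combo [Nontrivial E] {A B C : Set E} (hA : IsCompact A) (hB : IsCompact B)
    (hC : IsCompact C) (hAn : A.Nonempty) (hBn : B.Nonempty) {p q : ℝ} (hp : 0 ≤ p) (hq : 0 ≤ q)
    (hsub : ∀ a ∈ A, ∀ b ∈ B, p • a + q • b ∈ C) :
    p * vroot A + q * vroot B ≤ vroot C := by
  rw [← vroot_smul hp, ← vroot_smul hq]
  refine (vroot_add (hA.smul p) (hB.smul q) hAn.smul_set hBn.smul_set).trans (vroot_mono hC ?_)
  rintro _ ⟨_, ⟨a, ha, rfl⟩, _, ⟨b, hb, rfl⟩, rfl⟩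
  exact hsub a ha b hb

section Slices

/-- The section at height `t` along `v`, placed in the orthogonal complement of `v`. -/
def hslice (v : E) (K : Set E) (t : ℝ) : Set ((ℝ ∙ v)ᗮ) := {y | (y : E) + t • v ∈ K}

omit [FiniteDimensional ℝ E] [MeasurableSpace E] [BorelSpace E] in
theorem hslice_mono (v : E) {K L : Set E} (h : K ⊆ L) (t : ℝ) : hslice v K t ⊆ hslice v L t :=
  fun _ hy => h hy

omit [FiniteDimensional ℝ E] [MeasurableSpace E] [BorelSpace E] in
theorem isCompact_hslice (v : E) {K : Set E} (hK : IsCompact K) (t : ℝ) :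
    IsCompact (hslice v K t) := by
  refine (hK.image ((ℝ ∙ v)ᗮ.orthogonalProjectionOnto.continuous)).of_isClosed_subset
    (hK.isClosed.preimage (by fun_prop)) fun y hy => ⟨_, hy, ?_⟩
  rw [map_add, map_smul, Submodule.orthogonalProjectionOnto_mem_subspace_eq_self,
    Submodule.orthogonalProjectionOnto_orthogonalComplement_singleton_eq_zero]
  simp

/-- The root of the slice volume is concave where slices are nonempty. -/
theorem concaveOn_vroot_hslice (v : E) [Nontrivial ((ℝ ∙ v)ᗮ)] {K : Set E} (hK : IsCompact K)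
    (hKc : Convex ℝ K) {c d : ℝ} (hne : ∀ t ∈ Icc c d, (hslice v K t).Nonempty) :
    ConcaveOn ℝ (Icc c d) fun t => vroot (hslice v K t) := by
  refine ⟨convex_Icc c d, fun a ha b hb p q hp hq hpq => ?_⟩
  simp only [smul_eq_mul]
  refine vroot_combo (isCompact_hslice v hK a) (isCompact_hslice v hK b)
    (isCompact_hslice v hK _) (hne a ha) (hne b hb) hp hq fun x hx y hy => ?_
  have := hKc hx hy hp hq hpq
  show ((p • x + q • y : (ℝ ∙ v)ᗮ) : E) + (p * a + q * b) • v ∈ K
  convert this using 1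
  push_cast
  module

/-- Slice volumes attain their maximum on a compact interval. -/
theorem exists_max_hslice (v : E) {K : Set E} (hK : IsCompact K) {c d : ℝ} (hcd : c ≤ d) :
    ∃ x₀ ∈ Icc c d, ∀ t ∈ Icc c d, vroot (hslice v K t) ≤ vroot (hslice v K x₀) := by
  have husc : UpperSemicontinuous fun t => volume (hslice v K t) := by
    intro t₀ r hr
    set W : ℕ → Set ((ℝ ∙ v)ᗮ) :=
      fun k => {y | ∃ t ∈ Metric.closedBall t₀ (1 / (k + 1 : ℝ)), (y : E) + t • v ∈ K} with hW
    have hWc : ∀ k, IsCompact (W k) := by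
      intro k
      have hG : IsCompact {q : ((ℝ ∙ v)ᗮ) × ℝ | q.2 ∈ Metric.closedBall t₀ (1 / (k + 1 : ℝ)) ∧
          (q.1 : E) + q.2 • v ∈ K} := by
        refine ((hK.image ((ℝ ∙ v)ᗮ.orthogonalProjectionOnto.continuous)).prod
          (isCompact_closedBall t₀ (1 / (k + 1 : ℝ)))).of_isClosed_subset
          ((Metric.isClosed_closedBall.preimage continuous_snd).inter
            (hK.isClosed.preimage (by fun_prop))) ?_
        rintro ⟨y, t⟩ ⟨ht, hy⟩
        refine ⟨⟨_, hy, ?_⟩, ht⟩
        rw [map_add, map_smul, Submodule.orthogonalProjectionOnto_mem_subspace_eq_self,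
          Submodule.orthogonalProjectionOnto_orthogonalComplement_singleton_eq_zero]
        simp
      convert hG.image continuous_fst using 1
      ext y
      simp [hW]
    have hWm : Antitone W := fun i j hij y ⟨t, ht, hy⟩ =>
      ⟨t, Metric.closedBall_subset_closedBall (one_div_le_one_div_of_le (by positivity)
        (by exact_mod_cast Nat.succ_le_succ hij)) ht, hy⟩
    have hWi : (⋂ k, W k) = hslice v K t₀ := by
      refine subset_antisymm (fun y hy => ?_) (subset_iInter fun k y hy =>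
        ⟨t₀, Metric.mem_closedBall_self (by positivity), hy⟩)
      choose t ht hy using mem_iInter.1 hy
      have htl : Filter.Tendsto t Filter.atTop (nhds t₀) := by
        rw [tendsto_iff_dist_tendsto_zero]
        exact squeeze_zero (fun _ => dist_nonneg) ht tendsto_one_div_add_atTop_nhds_zero_nat
      exact hK.isClosed.mem_of_tendsto (tendsto_const_nhds.add (htl.smul_const v))
        (Filter.Eventually.of_forall hy)
    have hlim := tendsto_measure_iInter_atTop
      (fun k => (hWc k).measurableSet.nullMeasurableSet) hWm ⟨0, (hWc 0).measure_lt_top.ne⟩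
      (μ := (volume : Measure ((ℝ ∙ v)ᗮ)))
    rw [hWi] at hlim
    obtain ⟨k, hk⟩ := ((tendsto_order.1 hlim).2 r hr).exists
    filter_upwards [Metric.closedBall_mem_nhds t₀ (show (0 : ℝ) < 1 / (k + 1) by positivity)]
      with t ht
    exact lt_of_le_of_lt (measure_mono fun y hy => (⟨t, ht, hy⟩ : y ∈ W k)) hk
  obtain ⟨x₀, hx₀, hmax⟩ := UpperSemicontinuousOn.exists_isMaxOn (nonempty_Icc.2 hcd) isCompact_Icc
    (husc.upperSemicontinuousOn (Icc c d))
  refine ⟨x₀, hx₀, fun t ht => Real.rpow_le_rpow measureReal_nonneg ?_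
    (inv_nonneg.2 (Nat.cast_nonneg _))⟩
  exact ENNReal.toReal_mono (isCompact_hslice v hK x₀).measure_lt_top.ne (hmax ht)

end Slices

end Vale.Agent.P237.AllN
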