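import Vale.Agent.P237.AllN.Defs

/-!
# Shadows of a polytope from its facets

The shadow in direction `u` is covered once, up to a null set, by the shadows of the facets whose
normals make an acute angle with `u`, and also by the others.
-/

namespace Vale.Agent.P237.AllN

open MeasureTheory Set
open scoped RealInnerProductSpace ENNReal

variable {E : Type*} [NormedAddCommGroup E] [InnerProductSpace ℝ E] [FiniteDimensional ℝ E]
  [MeasurableSpace E] [BorelSpace E]

theorem level_null {w : E} (hw : w ≠ 0) (a : ℝ) : volume {y : E | ⟪w, y⟫ = a} = 0 := by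
  set y0 : E := (a / ‖w‖ ^ 2) • w
  have h0 : ⟪w, y0⟫ = a := by
    rw [real_inner_smul_right, real_inner_self_eq_norm_sq,
      div_mul_cancel₀ a (pow_ne_zero 2 (norm_ne_zero_iff.2 hw))]
  have hset : {y : E | ⟪w, y⟫ = a} = (fun y => y0 + y) '' ((ℝ ∙ w)ᗮ : Submodule ℝ E) := by
    ext y
    simp only [mem_ofPred_eq, mem_image, SetLike.mem_coe,
      Submodule.mem_orthogonal_singleton_iff_inner_right]
    refine ⟨fun h => ⟨y - y0, by rw [inner_sub_right, h, h0, sub_self], by abel⟩, ?_⟩
    rintro ⟨z, hz, rfl⟩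
    rw [inner_add_right, h0, hz, add_zero]
  rw [hset, Set.image_add_left, measure_preimage_add]
  refine Measure.addHaar_submodule volume _ fun htop => hw ?_
  have : w ∈ (ℝ ∙ w)ᗮ := htop ▸ Submodule.mem_top
  rw [Submodule.mem_orthogonal_singleton_iff_inner_right] at this
  exact inner_self_eq_zero.1 this

/-- The facets with normals on one side of `u` cover the shadow once. -/
theorem shadow_side {s : Finset E} {b : E → ℝ} (hs1 : ∀ v ∈ s, ‖v‖ = 1)
    (hP : IsCompact (poly s b)) {u : E} (hu : ‖u‖ = 1) {c : ℝ} (hc : c ≠ 0) :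
    volume ((ℝ ∙ u)ᗮ.orthogonalProjectionOnto '' poly s b) =
      ∑ v ∈ s with 0 < c * ⟪v, u⟫,
        ENNReal.ofReal |⟪v, u⟫| * volume (hslice v (poly s b) (b v)) := by
  classical
  set P := poly s b with hPdef
  set π := (ℝ ∙ u)ᗮ.orthogonalProjectionOnto
  set S := s.filter fun v => 0 < c * ⟪v, u⟫
  set F : E → Set E := fun v => P ∩ {x | ⟪v, x⟫ = b v}
  have hFc : ∀ v, IsCompact (F v) := fun v =>
    hP.inter_right (isClosed_eq (continuous_const.inner continuous_id) continuous_const)
  have hmem : ∀ v ∈ S, v ∈ s ∧ 0 < c * ⟪v, u⟫ := fun v hv => Finset.mem_filter.1 hv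
  have hF : ∀ v ∈ S, volume (π '' F v) = ENNReal.ofReal |⟪v, u⟫| * volume (hslice v P (b v)) := by
    intro v hv
    have hv1 := hs1 v (hmem v hv).1
    rw [shadow_hyperplane hv1 hu (hFc v) fun x hx => hx.2]
    congr 2
    ext y
    exact ⟨fun h => h.1, fun h => ⟨h, inner_glue hv1 (y, b v)⟩⟩
  have hπu : π u = 0 := Submodule.orthogonalProjectionOnto_orthogonalComplement_singleton_eq_zero u
  -- cover
  have hcover : π '' P = ⋃ v ∈ S, π '' F v := by
    refine subset_antisymm ?_ (iUnion₂_subset fun v _ => image_mono inter_subset_left)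
    rintro _ ⟨x, hx, rfl⟩
    by_cases hS : S.Nonempty
    · obtain ⟨v, hv, hmin⟩ :=
        S.exists_min_image (fun v => (b v - ⟪v, x⟫) / (c * ⟪v, u⟫)) hS
      set t := (b v - ⟪v, x⟫) / (c * ⟪v, u⟫)
      have ht : 0 ≤ t := div_nonneg (sub_nonneg.2 (hx v (hmem v hv).1)) (hmem v hv).2.le
      refine mem_biUnion hv ⟨x + (t * c) • u, ⟨fun w hw => ?_, ?_⟩, by simp [hπu]⟩
      · rw [inner_add_right, real_inner_smul_right, mul_assoc]
        rcases le_or_gt (c * ⟪w, u⟫) 0 with hneg | hpos
        · nlinarith [hx w hw]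
        · have := hmin w (Finset.mem_filter.2 ⟨hw, hpos⟩)
          rw [le_div_iff₀ hpos] at this
          linarith
      · simp only [mem_ofPred_eq]
        rw [inner_add_right, real_inner_smul_right, mul_assoc,
          div_mul_cancel₀ _ (hmem v hv).2.ne']
        ring
    · exfalso
      obtain ⟨R, hR⟩ := hP.isBounded.subset_closedBall 0
      have hR0 : 0 ≤ R := (norm_nonneg x).trans (mem_closedBall_zero_iff.1 (hR hx))
      set k := (2 * R + 1) / |c|
      have hk : 0 ≤ k := div_nonneg (by linarith) (abs_nonneg c)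
      have hin : x + (k * c) • u ∈ P := fun w hw => by
        have : c * ⟪w, u⟫ ≤ 0 := not_lt.1 fun h => hS ⟨w, Finset.mem_filter.2 ⟨hw, h⟩⟩
        rw [inner_add_right, real_inner_smul_right, mul_assoc]
        nlinarith [hx w hw]
      have h1 := mem_closedBall_zero_iff.1 (hR hin)
      have h2 := mem_closedBall_zero_iff.1 (hR hx)
      have h3 := norm_sub_le (x + (k * c) • u) x
      rw [add_sub_cancel_left, norm_smul, hu, Real.norm_eq_abs, abs_mul, abs_of_nonneg hk,
        div_mul_cancel₀ _ (abs_ne_zero.2 hc), mul_one] at h3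
      linarith
  -- overlaps
  have hdis : (S : Set E).Pairwise (Function.onFun (AEDisjoint volume) fun v => π '' F v) := by
    intro v hv w hw hvw
    obtain ⟨hv0, hv2⟩ := hmem v hv
    obtain ⟨hw0, hw2⟩ := hmem w hw
    have hv1 := hs1 v hv0
    refine measure_mono_null (t := π '' (F v ∩ F w)) ?_ ?_
    · rintro _ ⟨⟨x, hx, rfl⟩, y, hy, hxy⟩
      refine ⟨x, ⟨hx, ?_⟩, rfl⟩
      have hsub : π (y - x) = 0 := by rw [map_sub, hxy, sub_self]
      rw [Submodule.orthogonalProjectionOnto_eq_zero_iff, Submodule.orthogonal_orthogonal,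
        Submodule.mem_span_singleton] at hsub
      obtain ⟨r, hr⟩ := hsub
      have hy' : y = x + r • u := by rw [hr]; abel
      have b1 := hy.1 v hv0
      have b2 := hx.1 w hw0
      have e1 : ⟪v, x⟫ = b v := hx.2
      have e2 : ⟪w, y⟫ = b w := hy.2
      rw [hy', inner_add_right, real_inner_smul_right] at b1 e2
      have hr0 : r = 0 := by
        rcases lt_or_gt_of_ne hc with hneg | hpos
        · have g1 : ⟪v, u⟫ < 0 := by nlinarith
          have g2 : ⟪w, u⟫ < 0 := by nlinarith
          nlinarith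
        · have g1 : 0 < ⟪v, u⟫ := by nlinarith
          have g2 : 0 < ⟪w, u⟫ := by nlinarith
          nlinarith
      rw [hr0, zero_smul, add_zero] at hy'
      exact hy' ▸ hy
    · rw [shadow_hyperplane hv1 hu ((hFc v).inter (hFc w)) fun x hx => hx.1.2, mul_eq_zero]
      right
      set w' := (ℝ ∙ v)ᗮ.orthogonalProjectionOnto w
      have hw' : w' ≠ 0 := by
        intro h0
        have hd := glue_proj hv1 w
        rw [show (ℝ ∙ v)ᗮ.orthogonalProjectionOnto w = 0 from h0] at hd
        simp only [glue, ZeroMemClass.coe_zero, zero_add] at hd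
        have hn := congrArg norm hd
        rw [norm_smul, hv1, mul_one, hs1 w hw0, Real.norm_eq_abs] at hn
        rcases (abs_eq zero_le_one).1 hn with h | h
        · rw [h, one_smul] at hd; exact hvw hd
        · rw [h, neg_one_smul] at hd
          rw [← hd, inner_neg_left] at hw2
          linarith
      refine measure_mono_null (fun y hy => ?_) (level_null hw' (b w - b v * ⟪w, v⟫))
      have h := hy.2.2
      simp only [mem_ofPred_eq, inner_add_right, real_inner_smul_right] at h
      show ⟪w', y⟫ = _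
      rw [real_inner_comm, Submodule.inner_orthogonalProjectionOnto_eq_of_mem_left, real_inner_comm]
      linarith
  rw [hcover, measure_biUnion_finset₀ hdis fun v _ =>
    ((hFc v).image π.continuous).measurableSet.nullMeasurableSet]
  exact Finset.sum_congr rfl hF

/-- Cauchy's formula for the shadow of a polytope. -/
theorem shadow_eq {s : Finset E} {b : E → ℝ} (hs1 : ∀ v ∈ s, ‖v‖ = 1)
    (hP : IsCompact (poly s b)) {u : E} (hu : ‖u‖ = 1) :
    volume.real ((ℝ ∙ u)ᗮ.orthogonalProjectionOnto '' poly s b) =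
      (∑ v ∈ s, |⟪v, u⟫| * volume.real (hslice v (poly s b) (b v))) / 2 := by
  classical
  have h : ∀ c : ℝ, c ≠ 0 → volume.real ((ℝ ∙ u)ᗮ.orthogonalProjectionOnto '' poly s b) =
      ∑ v ∈ s, if 0 < c * ⟪v, u⟫ then |⟪v, u⟫| * volume.real (hslice v (poly s b) (b v)) else 0 := by
    intro c hc
    rw [measureReal_def, shadow_side hs1 hP hu hc, Finset.sum_filter, ENNReal.toReal_sum]
    · refine Finset.sum_congr rfl fun v _ => ?_
      split_ifs <;> simp [measureReal_def, ENNReal.toReal_mul]
    · intro v _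
      split_ifs
      · exact ENNReal.mul_ne_top ENNReal.ofReal_ne_top
          (isCompact_hslice _ hP _).measure_lt_top.ne
      · simp
  have h1 := h 1 one_ne_zero
  have h2 := h (-1) (by norm_num)
  have : ∑ v ∈ s, |⟪v, u⟫| * volume.real (hslice v (poly s b) (b v)) =
      (∑ v ∈ s, if 0 < 1 * ⟪v, u⟫ then |⟪v, u⟫| * volume.real (hslice v (poly s b) (b v)) else 0) +
      ∑ v ∈ s, if 0 < -1 * ⟪v, u⟫ then |⟪v, u⟫| * volume.real (hslice v (poly s b) (b v)) else 0 := by
    rw [← Finset.sum_add_distrib]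
    refine Finset.sum_congr rfl fun v _ => ?_
    rcases lt_trichotomy ⟪v, u⟫ 0 with g | g | g
    · simp [g, not_lt.2 g.le]
    · simp [g]
    · simp [g, not_lt.2 g.le]
  linarith

/-- Cauchy's formula in terms of `area` and `facet`. -/
theorem area_poly {s : Finset E} {b : E → ℝ} (hs1 : ∀ v ∈ s, ‖v‖ = 1)
    (hP : IsCompact (poly s b)) {u : E} (hu : ‖u‖ = 1) :
    area (poly s b) u = (∑ v ∈ s, facet s b v * |⟪v, u⟫|) / 2 := by
  rw [area, shadow_eq hs1 hP hu]
  simp only [facet, mul_comm]

end Vale.Agent.P237.AllN
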