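import Mathlib

/-!
# The algebra of the induction step
-/

namespace Vale.Agent.P237.AllN

open Finset

/-- The gain of one induction step, from dimension `k + 1` to `k + 2`, given `γ ≤ ∑ A / M`. -/
noncomputable def step (k : ℕ) (γ : ℝ) : ℝ :=
  γ / (k + 2) * ((2 * (k + 2) / γ + k * (k + 2)) / (k + 1) ^ 2) ^ (k + 1)

theorem step_nonneg (k : ℕ) {γ : ℝ} (hγ : 0 ≤ γ) : 0 ≤ step k γ := by unfold step; positivity

/-- The tangent line of a power lies below it. -/
theorem tangent (N : ℕ) {a b : ℝ} (ha : 0 ≤ a) (hb : 0 ≤ b) :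
    b ^ (N + 1) + (N + 1) * b ^ N * (a - b) ≤ a ^ (N + 1) := by
  induction N with
  | zero => simp
  | succ N ih =>
    have hab := mul_le_mul_of_nonneg_left ih ha
    have e1 : a * a ^ (N + 1) = a ^ (N + 1 + 1) := by ring
    have hsq : 0 ≤ ((N : ℝ) + 1) * b ^ N * (a - b) ^ 2 := by positivity
    push_cast
    have e2 : a * (b ^ (N + 1) + ((N : ℝ) + 1) * b ^ N * (a - b)) =
        b ^ (N + 1 + 1) + ((N : ℝ) + 1 + 1) * b ^ (N + 1) * (a - b) +
          ((N : ℝ) + 1) * b ^ N * (a - b) ^ 2 := by ring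
    linarith

/-- From the layer inequality to the bound for the integral of the section volumes. -/
theorem F_pow_ge (k : ℕ) {F V m w : ℝ} (hm : 0 < m) (hV : 0 < V) (hw : 0 ≤ w)
    (h : m ^ (k + 1) * w + (k : ℝ) * (k + 2) * V ≤ ((k : ℝ) + 1) ^ 2 * m * F) :
    V ^ (k + 1) / m ^ (k + 1) *
      ((m ^ (k + 1) * w / V + k * (k + 2)) / ((k : ℝ) + 1) ^ 2) ^ (k + 1) ≤ F ^ (k + 1) := by
  rw [← div_pow, ← mul_pow]
  refine pow_le_pow_left₀ (by positivity) ?_ _
  rw [div_mul_div_comm, div_le_iff₀ (by positivity)]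
  have e : V * (m ^ (k + 1) * w / V + k * (k + 2)) = m ^ (k + 1) * w + k * (k + 2) * V := by
    rw [mul_add, mul_div_assoc', mul_div_cancel_left₀ _ hV.ne']
    ring
  rw [e]
  linarith

/-- The facet sum: `S` are the shadow volumes, `M` the largest sections, `w` the widths. -/
theorem facet_sum {ι : Type*} (s : Finset ι) (k : ℕ) {R V γ : ℝ} (A M w S : ι → ℝ)
    (hA : ∀ i ∈ s, 0 ≤ A i) (hM : ∀ i ∈ s, 0 < M i) (hw : ∀ i ∈ s, 0 ≤ w i) (hR : 0 ≤ R)
    (hV : 0 < V) (hγ : 2 ≤ γ) (hwV : 2 * (k + 2) * V ≤ ∑ i ∈ s, A i * w i)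
    (hAM : γ ≤ ∑ i ∈ s, A i / M i)
    (hS : ∀ i ∈ s, R * (V ^ (k + 1) / M i *
      ((M i * w i / V + k * (k + 2)) / ((k : ℝ) + 1) ^ 2) ^ (k + 1)) ≤ S i) :
    R * step k γ * V ^ (k + 1) ≤ (∑ i ∈ s, A i * S i) / (k + 2) := by
  have hγ0 : 0 < γ := by linarith
  set x0 : ℝ := 2 * (k + 2) / γ with hx0
  set b : ℝ := (x0 + k * (k + 2)) / ((k : ℝ) + 1) ^ 2 with hb
  have hb0 : 0 ≤ b := by positivity
  set D : ℝ := b ^ k / ((k : ℝ) + 1) with hD
  have hD0 : 0 ≤ D := by positivity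
  have hx0n : x0 ≤ k + 2 := by
    rw [hx0, div_le_iff₀ hγ0]; nlinarith
  have hbb : ((k : ℝ) + 1) ^ 2 * b = x0 + k * (k + 2) := by rw [hb]; field_simp
  have hC : 0 ≤ b ^ (k + 1) - D * x0 := by
    have : D * x0 ≤ b ^ k * b := by
      rw [hD, div_mul_eq_mul_div, div_le_iff₀ (by positivity), mul_assoc]
      refine mul_le_mul_of_nonneg_left ?_ (pow_nonneg hb0 k)
      have hk0 : (0 : ℝ) ≤ k := Nat.cast_nonneg k
      nlinarith [hbb, hx0n]
    rw [pow_succ]; linarith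
  have hpt : ∀ i ∈ s, R * V ^ (k + 1) * ((b ^ (k + 1) - D * x0) * (A i / M i) +
      D / V * (A i * w i)) ≤ A i * S i := by
    intro i hi
    refine le_trans ?_ (mul_le_mul_of_nonneg_left (hS i hi) (hA i hi))
    set a : ℝ := (M i * w i / V + k * (k + 2)) / ((k : ℝ) + 1) ^ 2 with ha
    have ha0 : 0 ≤ a := by have := hM i hi; have := hw i hi; positivity
    have ht := tangent k ha0 hb0
    have hab : ((k : ℝ) + 1) * b ^ k * (a - b) = D * (M i * w i / V - x0) := by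
      rw [ha, hb, hD]; field_simp; ring
    rw [hab] at ht
    have hc : 0 ≤ R * V ^ (k + 1) * (A i / M i) := by
      have := hA i hi; have := (hM i hi).le; positivity
    have e : R * V ^ (k + 1) * ((b ^ (k + 1) - D * x0) * (A i / M i) + D / V * (A i * w i)) =
        R * V ^ (k + 1) * (A i / M i) * (b ^ (k + 1) + D * (M i * w i / V - x0)) := by
      have := (hM i hi).ne'
      field_simp
      ring
    calc R * V ^ (k + 1) * ((b ^ (k + 1) - D * x0) * (A i / M i) + D / V * (A i * w i))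
        = _ := e
      _ ≤ R * V ^ (k + 1) * (A i / M i) * a ^ (k + 1) := mul_le_mul_of_nonneg_left ht hc
      _ = A i * (R * (V ^ (k + 1) / M i * a ^ (k + 1))) := by ring
  have hsum := sum_le_sum hpt
  rw [← mul_sum, sum_add_distrib, ← mul_sum, ← mul_sum] at hsum
  rw [le_div_iff₀ (by positivity)]
  refine le_trans ?_ hsum
  have h1 := mul_le_mul_of_nonneg_left hAM hC
  have h2 : D * (2 * (k + 2)) ≤ D / V * ∑ i ∈ s, A i * w i := by
    have e : D / V * ∑ i ∈ s, A i * w i = D * ((∑ i ∈ s, A i * w i) / V) := by ring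
    rw [e]
    refine mul_le_mul_of_nonneg_left ?_ hD0
    rw [le_div_iff₀ hV]
    exact hwV
  have hmain : γ * b ^ (k + 1) ≤ (b ^ (k + 1) - D * x0) * ∑ i ∈ s, A i / M i +
      D / V * ∑ i ∈ s, A i * w i := by
    have : D * x0 * γ = D * (2 * (k + 2)) := by rw [hx0]; field_simp
    nlinarith
  calc R * step k γ * V ^ (k + 1) * (k + 2) = R * V ^ (k + 1) * (γ * b ^ (k + 1)) := by
        rw [step, hb, hx0]; field_simp
    _ ≤ _ := mul_le_mul_of_nonneg_left hmain (by positivity)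

/-- The step with the quartic value of `γ` in dimension three gives `(1 + 5√5/2) / 4`. -/
theorem step_one : 4 * step 1 (3 * (√5 - 1)) = 1 + 5 * √5 / 2 := by
  have h5 : √(5 : ℝ) * √5 = 5 := Real.mul_self_sqrt (by norm_num)
  have h1 : (1 : ℝ) < √5 := Real.lt_sqrt_of_sq_lt (by norm_num)
  have hne : √(5 : ℝ) - 1 ≠ 0 := by linarith
  have e : 2 * ((1 : ℝ) + 2) / (3 * (√5 - 1)) = (√5 + 1) / 2 := by
    field_simp
    nlinarith [h5]
  simp only [step, Nat.cast_one]
  rw [e]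
  ring_nf
  have q2 : √(5 : ℝ) ^ 2 = 5 := by rw [sq]; exact h5
  have q3 : √(5 : ℝ) ^ 3 = 5 * √5 := by rw [pow_succ, q2]
  simp only [q3, q2]
  ring

/-- The lower constants: `4` in the plane, `1 + 5√5/2` in space, then the general step. -/
noncomputable def c : ℕ → ℝ
  | 0 => 1
  | 1 => 1
  | 2 => 4
  | 3 => 1 + 5 * √5 / 2
  | k + 4 => c (k + 3) * step (k + 2) (2 * √((k : ℝ) + 4))

theorem c_nonneg : ∀ n, 0 ≤ c n
  | 0 => by simp [c]
  | 1 => by simp [c]
  | 2 => by simp [c]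
  | 3 => by simp only [c]; positivity
  | k + 4 => by
    simp only [c]
    exact mul_nonneg (c_nonneg (k + 3)) (step_nonneg _ (by positivity))

/-- The general step in closed form. -/
theorem step_sqrt (k : ℕ) : step k (2 * √((k : ℝ) + 2)) =
    2 / √((k : ℝ) + 2) * ((√((k : ℝ) + 2) + k * (k + 2)) / (k + 1) ^ 2) ^ (k + 1) := by
  have hs : √((k : ℝ) + 2) * √((k : ℝ) + 2) = k + 2 := Real.mul_self_sqrt (by positivity)
  have hs0 : 0 < √((k : ℝ) + 2) := Real.sqrt_pos.2 (by positivity)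
  have e1 : 2 * ((k : ℝ) + 2) / (2 * √((k : ℝ) + 2)) = √((k : ℝ) + 2) := by
    field_simp
    nlinarith
  have e2 : 2 * √((k : ℝ) + 2) / ((k : ℝ) + 2) = 2 / √((k : ℝ) + 2) := by
    field_simp
    nlinarith
  simp only [step, e1, e2]

end Vale.Agent.P237.AllN
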