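import Mathlib
import Vale.Agent.P237.AllN.BMSum
import Vale.Agent.P237.AllN.Tangent

/-!
# Minkowski's first inequality for polytopes, without derivatives

A small outer parallel body of a polytope differs from it by slabs over the facets.
-/

namespace Vale.Agent.P237.AllN

open MeasureTheory Set Module Filter
open scoped Pointwise RealInnerProductSpace Topology

variable {E : Type*} [NormedAddCommGroup E] [InnerProductSpace ℝ E] [FiniteDimensional ℝ E]
  [MeasurableSpace E] [BorelSpace E]

/-- The polytope with normals `s` and support values `b`. -/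
def poly (s : Finset E) (b : E → ℝ) : Set E := {x | ∀ v ∈ s, ⟪v, x⟫ ≤ b v}

omit [FiniteDimensional ℝ E] [MeasurableSpace E] [BorelSpace E] in
theorem isClosed_poly (s : Finset E) (b : E → ℝ) : IsClosed (poly s b) := by
  simp only [poly, Set.ofPred_forall]
  exact isClosed_biInter fun v _ => isClosed_le (continuous_const.inner continuous_id) continuous_const

omit [FiniteDimensional ℝ E] [MeasurableSpace E] [BorelSpace E] in
theorem convex_poly (s : Finset E) (b : E → ℝ) : Convex ℝ (poly s b) := by
  intro x hx y hy p q hp hq hpq v hv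
  rw [inner_add_right, real_inner_smul_right, real_inner_smul_right]
  calc p * ⟪v, x⟫ + q * ⟪v, y⟫ ≤ p * b v + q * b v :=
        add_le_add (mul_le_mul_of_nonneg_left (hx v hv) hp) (mul_le_mul_of_nonneg_left (hy v hv) hq)
    _ = b v := by rw [← add_mul, hpq, one_mul]

/-- Splitting along a unit vector preserves volume. -/
theorem measurePreserving_split {v : E} (hv : ‖v‖ = 1) :
    MeasurePreserving (fun x : E => (⟪v, x⟫, (ℝ ∙ v)ᗮ.orthogonalProjectionOnto x)) := by
  set K := (ℝ ∙ v : Submodule ℝ E)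
  have h1 := (WithLp.volume_preserving_ofLp K Kᗮ).comp K.orthogonalDecomposition.measurePreserving
  set l := LinearIsometryEquiv.toSpanUnitSingleton (𝕜 := ℝ) v hv
  have h2 : MeasurePreserving (Prod.map l.symm id : K × Kᗮ → ℝ × Kᗮ) :=
    l.symm.measurePreserving.prod (MeasurePreserving.id _)
  convert h2.comp h1 using 1
  funext x
  refine Prod.ext ?_ ?_
  · show ⟪v, x⟫ = l.symm (WithLp.ofLp (K.orthogonalDecomposition x)).1
    rw [LinearIsometryEquiv.eq_symm_apply]
    ext
    simp [l, K, Submodule.orthogonalDecomposition_apply,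
      Submodule.starProjection_unit_singleton ℝ hv]
  · simp [K, Submodule.orthogonalDecomposition_apply]

/-- A set between two levels of `⟪v, ·⟫` has volume at most width times shadow. -/
theorem volume_slab_le {v : E} (hv : ‖v‖ = 1) {X : Set E} (hX : IsCompact X) {α β : ℝ}
    (h : ∀ x ∈ X, α ≤ ⟪v, x⟫ ∧ ⟪v, x⟫ ≤ β) :
    volume X ≤ ENNReal.ofReal (β - α) * volume ((ℝ ∙ v)ᗮ.orthogonalProjectionOnto '' X) := by
  set W := (ℝ ∙ v)ᗮ.orthogonalProjectionOnto '' X
  have hW : IsCompact W := hX.image (ℝ ∙ v)ᗮ.orthogonalProjectionOnto.continuous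
  have hmp := measurePreserving_split hv
  calc volume X
      ≤ volume ((fun x : E => (⟪v, x⟫, (ℝ ∙ v)ᗮ.orthogonalProjectionOnto x)) ⁻¹' (Icc α β ×ˢ W)) :=
        measure_mono fun x hx => ⟨h x hx, mem_image_of_mem _ hx⟩
    _ = _ := by
        rw [hmp.measure_preimage (measurableSet_Icc.prod hW.measurableSet).nullMeasurableSet,
          Measure.volume_eq_prod, Measure.prod_prod, Real.volume_Icc]

omit [FiniteDimensional ℝ E] [MeasurableSpace E] [BorelSpace E] in
/-- Moving the sides out keeps a polytope compact. -/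
theorem isCompact_poly_add {s : Finset E} {b h : E → ℝ} (hb : ∀ v ∈ s, 0 < b v)
    (hh : ∀ v ∈ s, 0 ≤ h v) (hP : IsCompact (poly s b)) :
    IsCompact (poly s fun v => b v + h v) := by
  set r := 1 + ∑ u ∈ s, h u / b u with hr
  have h0 : 0 ≤ ∑ u ∈ s, h u / b u := Finset.sum_nonneg fun u hu => div_nonneg (hh u hu) (hb u hu).le
  refine (hP.smul r).of_isClosed_subset (isClosed_poly _ _) fun x hx => ?_
  have hr0 : (0 : ℝ) < r := by linarith
  refine (mem_smul_set_iff_inv_smul_mem₀ hr0.ne' _ _).2 fun v hv => ?_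
  rw [real_inner_smul_right, inv_mul_le_iff₀ hr0]
  refine (hx v hv).trans ?_
  have h1 := Finset.single_le_sum (f := fun u => h u / b u)
    (fun u hu => div_nonneg (hh u hu) (hb u hu).le) hv
  calc b v + h v = (1 + h v / b v) * b v := by have := (hb v hv).ne'; field_simp
    _ ≤ r * b v := mul_le_mul_of_nonneg_right (by rw [hr]; linarith) (hb v hv).le

variable [Nontrivial E]

/-- Minkowski's first inequality for a polytope, in the form given by concavity. -/
theorem minkowski_global {s : Finset E} {b h : E → ℝ} (hs1 : ∀ v ∈ s, ‖v‖ = 1)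
    (hb : ∀ v ∈ s, 0 < b v) (hP : IsCompact (poly s b)) {Q : Set E} (hQ : IsCompact Q)
    (hQn : Q.Nonempty) (hh : ∀ v ∈ s, 0 ≤ h v) (hQh : ∀ v ∈ s, ∀ q ∈ Q, ⟪v, q⟫ ≤ h v) :
    (finrank ℝ E : ℝ) * vroot (poly s b) ^ (finrank ℝ E - 1) *
        (vroot (poly s b + Q) - vroot (poly s b)) ≤
      ∑ v ∈ s, h v * volume.real (hslice v (poly s b) (b v)) := by
  set P := poly s b with hPdef
  set r := vroot P with hr
  set q := vroot (P + Q) - r with hq
  set N := finrank ℝ E - 1 with hN
  have hNs : finrank ℝ E = N + 1 := by have := finrank_pos (R := ℝ) (M := E); omega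
  have hPn : P.Nonempty := ⟨0, fun v hv => by rw [inner_zero_right]; exact (hb v hv).le⟩
  set ε : ℕ → ℝ := fun k => 1 / (k + 1 : ℝ) with hε
  have hε0 : ∀ k, 0 < ε k := fun k => by simp only [hε]; positivity
  set Pk : ℕ → Set E := fun k => poly s fun v => b v + ε k * h v with hPk
  have hPkc : ∀ k, IsCompact (Pk k) := fun k =>
    isCompact_poly_add hb (fun v hv => mul_nonneg (hε0 k).le (hh v hv)) hP
  set X : E → ℕ → Set E :=
    fun v k => Pk k ∩ {x | b v ≤ ⟪v, x⟫ ∧ ⟪v, x⟫ ≤ b v + ε k * h v} with hX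
  have hXc : ∀ v k, IsCompact (X v k) := fun v k => (hPkc k).inter_right
    (IsClosed.inter (s₁ := {x : E | b v ≤ ⟪v, x⟫}) (s₂ := {x : E | ⟪v, x⟫ ≤ b v + ε k * h v})
      (isClosed_le continuous_const (continuous_const.inner continuous_id))
      (isClosed_le (continuous_const.inner continuous_id) continuous_const))
  set W : (v : E) → ℕ → Set ((ℝ ∙ v)ᗮ) :=
    fun v k => (ℝ ∙ v)ᗮ.orthogonalProjectionOnto '' X v k with hW
  have hWc : ∀ v k, IsCompact (W v k) := fun v k =>
    (hXc v k).image (ℝ ∙ v)ᗮ.orthogonalProjectionOnto.continuous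
  have hbound : ∀ k, ((N : ℝ) + 1) * r ^ N * q ≤ ∑ v ∈ s, h v * volume.real (W v k) := by
    intro k
    have hsub : P + ε k • Q ⊆ Pk k := by
      rintro _ ⟨x, hx, _, ⟨y, hy, rfl⟩, rfl⟩ v hv
      simp only [inner_add_right, real_inner_smul_right]
      exact add_le_add (hx v hv) (mul_le_mul_of_nonneg_left (hQh v hv y hy) (hε0 k).le)
    have hcover : Pk k ⊆ P ∪ ⋃ v ∈ s, X v k := by
      intro x hx
      by_cases hxP : x ∈ P
      · exact Or.inl hxP
      · simp only [hPdef, poly, mem_ofPred_eq, not_forall, not_le] at hxP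
        obtain ⟨v, hv, hlt⟩ := hxP
        exact Or.inr (mem_biUnion hv ⟨hx, hlt.le, hx v hv⟩)
    have hup : volume.real (Pk k) ≤
        volume.real P + ∑ v ∈ s, ε k * h v * volume.real (W v k) := by
      have h1 : volume (Pk k) ≤ volume P + ∑ v ∈ s, volume (X v k) :=
        (measure_mono hcover).trans ((measure_union_le _ _).trans
          (add_le_add le_rfl (measure_biUnion_finset_le _ _)))
      have h2 : ∀ v ∈ s, (volume (X v k)).toReal ≤ ε k * h v * volume.real (W v k) := by
        intro v hv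
        have hle := volume_slab_le (hs1 v hv) (hXc v k) (α := b v) (β := b v + ε k * h v)
          fun x hx => hx.2
        have := ENNReal.toReal_mono
          (ENNReal.mul_ne_top ENNReal.ofReal_ne_top (hWc v k).measure_lt_top.ne) hle
        rwa [ENNReal.toReal_mul, add_sub_cancel_left,
          ENNReal.toReal_ofReal (mul_nonneg (hε0 k).le (hh v hv))] at this
      have hne : ∀ v ∈ s, volume (X v k) ≠ ⊤ := fun v _ => (hXc v k).measure_lt_top.ne
      have h3 := ENNReal.toReal_mono
        (ENNReal.add_ne_top.2 ⟨hP.measure_lt_top.ne, ENNReal.sum_ne_top.2 hne⟩) h1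
      rw [ENNReal.toReal_add hP.measure_lt_top.ne (ENNReal.sum_ne_top.2 hne),
        ENNReal.toReal_sum hne] at h3
      exact h3.trans (add_le_add le_rfl (Finset.sum_le_sum h2))
    have hε1 : ε k ≤ 1 := by
      simp only [hε]
      rw [div_le_one (by positivity)]
      linarith [Nat.cast_nonneg (α := ℝ) k]
    have hbm : r + ε k * q ≤ vroot (Pk k) := by
      have h := vroot_combo (p := 1 - ε k) (q := ε k) hP (hP.add hQ) (hP.add (hQ.smul (ε k))) hPn
        (hPn.add hQn) (by linarith) (hε0 k).le fun a ha _ ⟨a', ha', y, hy, hby⟩ => by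
          refine ⟨(1 - ε k) • a + ε k • a', convex_poly s b ha ha' (by linarith) (hε0 k).le (by ring),
            ε k • y, smul_mem_smul_set hy, ?_⟩
          simp only [← hby, smul_add, add_assoc]
      rw [← hr] at h
      refine le_trans ?_ (h.trans (vroot_mono (hPkc k) hsub))
      rw [hq]
      linarith
    have hr0 : 0 ≤ r := vroot_nonneg P
    have hsum0 : 0 ≤ r + ε k * q := by
      rw [hq]
      nlinarith [mul_nonneg (hε0 k).le (vroot_nonneg (P + Q))]
    have ht := tangent N hsum0 hr0
    have hpow := pow_le_pow_left₀ hsum0 hbm (N + 1)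
    rw [← hNs, vroot_pow, hNs] at hpow
    have hrN : r ^ (N + 1) = volume.real P := by rw [← hNs, hr, vroot_pow]
    rw [add_sub_cancel_left, hrN] at ht
    have hfin : ε k * (((N : ℝ) + 1) * r ^ N * q) ≤ ε k * ∑ v ∈ s, h v * volume.real (W v k) := by
      have : ∑ v ∈ s, ε k * h v * volume.real (W v k) =
          ε k * ∑ v ∈ s, h v * volume.real (W v k) := by
        rw [Finset.mul_sum]; exact Finset.sum_congr rfl fun v _ => by ring
      linarith
    exact le_of_mul_le_mul_left hfin (hε0 k)
  have hlim : ∀ v ∈ s, Tendsto (fun k => volume.real (W v k)) atTop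
      (𝓝 (volume.real (hslice v P (b v)))) := by
    intro v hv
    have hmono : ∀ i j : ℕ, i ≤ j → ε j ≤ ε i := fun i j hij =>
      one_div_le_one_div_of_le (by positivity) (by exact_mod_cast Nat.succ_le_succ hij)
    have hWm : Antitone (W v) := fun i j hij => image_mono fun x hx =>
      ⟨fun u hu => (hx.1 u hu).trans (add_le_add le_rfl
        (mul_le_mul_of_nonneg_right (hmono i j hij) (hh u hu))), hx.2.1,
        hx.2.2.trans (add_le_add le_rfl (mul_le_mul_of_nonneg_right (hmono i j hij) (hh v hv)))⟩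
    have hε' : Tendsto ε atTop (𝓝 0) := tendsto_one_div_add_atTop_nhds_zero_nat
    have hcoord : ∀ x : E, ((ℝ ∙ v)ᗮ.orthogonalProjectionOnto x : E) + ⟪v, x⟫ • v = x := by
      intro x
      rw [← Submodule.starProjection_apply, Submodule.starProjection_orthogonal_val,
        Submodule.starProjection_unit_singleton ℝ (hs1 v hv), sub_add_cancel]
    have hWi : (⋂ k, W v k) = hslice v P (b v) := by
      refine subset_antisymm (fun y hy => ?_) (subset_iInter fun k y hy => ?_)
      · choose x hx hxy using mem_iInter.1 hy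
        have ht : Tendsto (fun k => ⟪v, x k⟫) atTop (𝓝 (b v)) :=
          tendsto_of_tendsto_of_tendsto_of_le_of_le tendsto_const_nhds
            (by simpa using (hε'.mul_const (h v)).const_add (b v))
            (fun k => (hx k).2.1) (fun k => (hx k).2.2)
        have hxl : Tendsto x atTop (𝓝 ((y : E) + b v • v)) := by
          have := (tendsto_const_nhds (x := (y : E))).add (ht.smul_const v)
          refine this.congr fun k => ?_
          conv_rhs => rw [← hcoord (x k), hxy k]
        intro u hu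
        exact le_of_tendsto_of_tendsto' ((tendsto_const_nhds.inner hxl))
          (by simpa using (hε'.mul_const (h u)).const_add (b u)) fun k => (hx k).1 u hu
      · have hy0 : ⟪v, (y : E)⟫ = 0 := Submodule.mem_orthogonal_singleton_iff_inner_right.1 y.2
        have hbv : ⟪v, (y : E) + b v • v⟫ = b v := by
          rw [inner_add_right, hy0, real_inner_smul_right, real_inner_self_eq_norm_sq, hs1 v hv]
          ring
        refine ⟨(y : E) + b v • v, ⟨fun u hu => (hy u hu).trans
          (le_add_of_nonneg_right (mul_nonneg (hε0 k).le (hh u hu))), hbv.ge,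
          hbv.le.trans (le_add_of_nonneg_right (mul_nonneg (hε0 k).le (hh v hv)))⟩, ?_⟩
        rw [map_add, map_smul, Submodule.orthogonalProjectionOnto_mem_subspace_eq_self,
          Submodule.orthogonalProjectionOnto_orthogonalComplement_singleton_eq_zero]
        simp
    have h := tendsto_measure_iInter_atTop
      (fun k => (hWc v k).measurableSet.nullMeasurableSet) hWm ⟨0, (hWc v 0).measure_lt_top.ne⟩
      (μ := (volume : Measure ((ℝ ∙ v)ᗮ)))
    rw [hWi] at h
    exact (ENNReal.tendsto_toReal (isCompact_hslice v hP (b v)).measure_lt_top.ne).comp h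
  rw [show (finrank ℝ E : ℝ) = (N : ℝ) + 1 by rw [hNs]; push_cast; ring]
  exact ge_of_tendsto' (tendsto_finsetSum s fun v hv => (hlim v hv).const_mul (h v)) hbound

/-- Minkowski's first inequality for a polytope: `n |P|^((n-1)/n) |Q|^(1/n) ≤ ∑ A_v h_v`. -/
theorem minkowski_first {s : Finset E} {b h : E → ℝ} (hs1 : ∀ v ∈ s, ‖v‖ = 1)
    (hb : ∀ v ∈ s, 0 < b v) (hP : IsCompact (poly s b)) {Q : Set E} (hQ : IsCompact Q)
    (hQn : Q.Nonempty) (hh : ∀ v ∈ s, 0 ≤ h v) (hQh : ∀ v ∈ s, ∀ q ∈ Q, ⟪v, q⟫ ≤ h v) :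
    (finrank ℝ E : ℝ) * vroot (poly s b) ^ (finrank ℝ E - 1) * vroot Q ≤
      ∑ v ∈ s, h v * volume.real (hslice v (poly s b) (b v)) := by
  have hPn : (poly s b).Nonempty := ⟨0, fun v hv => by rw [inner_zero_right]; exact (hb v hv).le⟩
  refine le_trans (mul_le_mul_of_nonneg_left ?_ (mul_nonneg (Nat.cast_nonneg _)
    (pow_nonneg (vroot_nonneg _) _))) (minkowski_global hs1 hb hP hQ hQn hh hQh)
  linarith [vroot_add hP hQ hPn hQn]

/-- Twice the dimension times the volume is at most the sum of facet areas times widths. -/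
theorem two_mul_volume_le {s : Finset E} {b w : E → ℝ} (hs1 : ∀ v ∈ s, ‖v‖ = 1)
    (hb : ∀ v ∈ s, 0 < b v) (hP : IsCompact (poly s b))
    (hw : ∀ v ∈ s, ∀ x ∈ poly s b, ∀ y ∈ poly s b, ⟪v, x⟫ - ⟪v, y⟫ ≤ w v) :
    2 * (finrank ℝ E : ℝ) * volume.real (poly s b) ≤
      ∑ v ∈ s, w v * volume.real (hslice v (poly s b) (b v)) := by
  set P := poly s b with hPdef
  have hPn : P.Nonempty := ⟨0, fun v hv => by rw [inner_zero_right]; exact (hb v hv).le⟩
  obtain ⟨x₀, hx₀⟩ := hPn
  have hneg : vroot (-P) = vroot P := by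
    rw [vroot, vroot, measureReal_def, measureReal_def, Measure.measure_neg]
  have h := minkowski_first hs1 hb hP (hP.add hP.neg) (Nonempty.add ⟨x₀, hx₀⟩ ⟨-x₀, by simpa⟩)
    (fun v hv => le_trans (by simp) (hw v hv x₀ hx₀ x₀ hx₀))
    (by
      rintro v hv _ ⟨x, hx, y, hy, rfl⟩
      have := hw v hv x hx (-y) hy
      rw [inner_add_right]
      rw [inner_neg_right] at this
      linarith)
  refine le_trans ?_ h
  have hadd := vroot_add hP hP.neg ⟨x₀, hx₀⟩ ⟨-x₀, by simpa⟩
  rw [hneg] at hadd
  have hV : vroot P ^ (finrank ℝ E - 1) * vroot P = volume.real P := by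
    rw [← pow_succ, Nat.sub_add_cancel finrank_pos, vroot_pow]
  have := mul_le_mul_of_nonneg_left hadd
    (show 0 ≤ (finrank ℝ E : ℝ) * vroot P ^ (finrank ℝ E - 1) from
      mul_nonneg (Nat.cast_nonneg _) (pow_nonneg (vroot_nonneg _) _))
  linear_combination this + (-2 * (finrank ℝ E : ℝ)) * hV

end Vale.Agent.P237.AllN
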