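import Vale.Agent.P237.AllN.BMSum

/-!
# Slicing along a unit vector, and shadows of sets in hyperplanes
-/

namespace Vale.Agent.P237.AllN

set_option linter.unusedSectionVars false

open MeasureTheory Set Function
open scoped RealInnerProductSpace ENNReal Pointwise

variable {E : Type*} [NormedAddCommGroup E] [InnerProductSpace ℝ E]

/-- A point of the hyperplane and a height give a point. -/
def glue (v : E) (p : (ℝ ∙ v)ᗮ × ℝ) : E := (p.1 : E) + p.2 • v

theorem continuous_glue (v : E) : Continuous (glue v) := by unfold glue; fun_prop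

theorem perp_inner (v : E) (y : (ℝ ∙ v)ᗮ) : ⟪v, (y : E)⟫ = 0 :=
  Submodule.mem_orthogonal_singleton_iff_inner_right.1 y.2

theorem inner_glue {v : E} (hv : ‖v‖ = 1) (p : (ℝ ∙ v)ᗮ × ℝ) : ⟪v, glue v p⟫ = p.2 := by
  simp [glue, inner_add_right, perp_inner, real_inner_smul_right, hv]

theorem convex_hslice (v : E) {X : Set E} (hX : Convex ℝ X) (t : ℝ) : Convex ℝ (hslice v X t) := by
  intro y hy z hz a b ha hb hab
  have h : a • (t • v) + b • (t • v) = t • v := by rw [← add_smul, hab, one_smul]
  have e := hX hy hz ha hb hab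
  show ((a • y + b • z : (ℝ ∙ v)ᗮ) : E) + t • v ∈ X
  convert e using 1
  conv_lhs => rw [← h]
  push_cast
  module

variable [FiniteDimensional ℝ E]

theorem glue_proj {v : E} (hv : ‖v‖ = 1) (x : E) :
    glue v ((ℝ ∙ v)ᗮ.orthogonalProjectionOnto x, ⟪v, x⟫) = x := by
  have h := (ℝ ∙ v).starProjection_add_starProjection_orthogonal x
  rw [Submodule.starProjection_unit_singleton ℝ hv x] at h
  conv_rhs => rw [← h]
  simp [glue, add_comm]

theorem proj_glue {v : E} (p : (ℝ ∙ v)ᗮ × ℝ) :
    (ℝ ∙ v)ᗮ.orthogonalProjectionOnto (glue v p) = p.1 := by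
  have h0 : (ℝ ∙ v)ᗮ.orthogonalProjectionOnto v = 0 :=
    Submodule.orthogonalProjectionOnto_orthogonalComplement_singleton_eq_zero v
  simp [glue, h0]

theorem hslice_eq_preimage (v : E) (X : Set E) (t : ℝ) :
    hslice v X t = (fun y => glue v (y, t)) ⁻¹' X := rfl

variable [MeasurableSpace E] [BorelSpace E]

theorem measurePreserving_glue {v : E} (hv : ‖v‖ = 1) : MeasurePreserving (glue v) := by
  set e := LinearIsometryEquiv.toSpanUnitSingleton (𝕜 := ℝ) v hv
  have h1 : MeasurePreserving (Prod.map (id : (ℝ ∙ v)ᗮ → (ℝ ∙ v)ᗮ) e) :=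
    (MeasurePreserving.id volume).prod e.measurePreserving
  have h2 : MeasurePreserving (Prod.swap : (ℝ ∙ v)ᗮ × (ℝ ∙ v) → (ℝ ∙ v) × (ℝ ∙ v)ᗮ) := by
    rw [Measure.volume_eq_prod, Measure.volume_eq_prod]
    exact Measure.measurePreserving_swap
  have h3 := WithLp.volume_preserving_toLp (ℝ ∙ v) (ℝ ∙ v)ᗮ
  have h4 := ((ℝ ∙ v).orthogonalDecomposition.symm).measurePreserving
  have h := h4.comp (h3.comp (h2.comp h1))
  convert h using 1
  funext p
  simp [glue, e, add_comm, Submodule.orthogonalDecomposition_symm_apply]

/-- Slicing: the volume is the integral of the slices. -/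
theorem volume_eq_slices {v : E} (hv : ‖v‖ = 1) {X : Set E} (hX : MeasurableSet X) :
    volume X = ∫⁻ t : ℝ, volume (hslice v X t) := by
  rw [← (measurePreserving_glue hv).measure_preimage hX.nullMeasurableSet,
    Measure.volume_eq_prod, Measure.prod_apply_symm ((continuous_glue v).measurable hX)]
  rfl

/-- Slicing in the other order. -/
theorem volume_eq_lines {v : E} (hv : ‖v‖ = 1) {X : Set E} (hX : MeasurableSet X) :
    volume X = ∫⁻ y : (ℝ ∙ v)ᗮ, volume {t : ℝ | glue v (y, t) ∈ X} := by
  rw [← (measurePreserving_glue hv).measure_preimage hX.nullMeasurableSet,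
    Measure.volume_eq_prod, Measure.prod_apply ((continuous_glue v).measurable hX)]
  rfl

/-- The shadow of a set lying in a hyperplane is its area times the cosine. -/
theorem shadow_hyperplane {v u : E} (hv : ‖v‖ = 1) (hu : ‖u‖ = 1) {X : Set E} (hX : IsCompact X)
    {c : ℝ} (hXv : ∀ x ∈ X, ⟪v, x⟫ = c) :
    volume ((ℝ ∙ u)ᗮ.orthogonalProjectionOnto '' X) =
      ENNReal.ofReal |⟪v, u⟫| * volume (hslice v X c) := by
  set a := ⟪v, u⟫ with ha
  set C : Set E := (fun p : E × ℝ => p.1 + p.2 • u) '' (X ×ˢ Icc (0 : ℝ) 1) with hC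
  have hCc : IsCompact C := (hX.prod isCompact_Icc).image (by fun_prop)
  set P := (ℝ ∙ u)ᗮ.orthogonalProjectionOnto '' X with hP
  have hPc : IsCompact P := hX.image (ContinuousLinearMap.continuous _)
  -- along `u`
  have hline : ∀ y, P.indicator 1 y ≤ volume {t : ℝ | glue u (y, t) ∈ C} := by
    intro y
    by_cases hy : y ∈ P
    · obtain ⟨x, hx, rfl⟩ := hy
      rw [indicator_of_mem (show _ ∈ P from mem_image_of_mem _ hx)]
      refine le_trans ?_ (measure_mono (s := Icc ⟪u, x⟫ (⟪u, x⟫ + 1)) fun t ht => ?_)
      · simp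
      · refine ⟨(x, t - ⟪u, x⟫), ⟨hx, ⟨by linarith [ht.1], by linarith [ht.2]⟩⟩, ?_⟩
        conv_rhs => rw [show t = ⟪u, x⟫ + (t - ⟪u, x⟫) by ring]
        simp only [glue, add_smul, ← add_assoc]
        congr 1
        exact (glue_proj hu x).symm
    · simp [indicator_of_notMem hy]
  have hle : volume P ≤ volume C := by
    rw [volume_eq_lines hu hCc.measurableSet, ← lintegral_indicator_one hPc.measurableSet]
    exact lintegral_mono hline
  -- along `v`
  have hinv : ∀ x ∈ X, ∀ s : ℝ, ⟪v, x + s • u⟫ = c + s * a := fun x hx s => by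
    rw [inner_add_right, real_inner_smul_right, hXv x hx]
  rcases eq_or_ne a 0 with ha0 | ha0
  · have hC0 : volume C = 0 := by
      rw [volume_eq_slices hv hCc.measurableSet, lintegral_eq_zero_iff']
      · refine (ae_iff.2 ?_)
        refine measure_mono_null (t := {c}) (fun t ht => ?_) Real.volume_singleton
        by_contra htc
        refine ht ?_
        have : hslice v C t = ∅ := eq_empty_of_forall_notMem fun y ⟨⟨x, s⟩, ⟨hx, _⟩, hxy⟩ => htc (by
          have h := congrArg (fun z => ⟪v, z⟫) hxy
          simp only [hinv x hx s, ha0, mul_zero, add_zero] at h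
          rw [h, show (y : E) + t • v = glue v (y, t) from rfl, inner_glue hv]; rfl)
        simp [this]
      · exact (measurable_measure_prodMk_right
          ((continuous_glue v).measurable hCc.measurableSet)).aemeasurable
    rw [ha0, abs_zero, ENNReal.ofReal_zero, zero_mul]
    exact le_antisymm (hle.trans hC0.le) zero_le
  have hline' : ∀ y, volume {t : ℝ | glue u (y, t) ∈ C} ≤ P.indicator 1 y := by
    intro y
    by_cases hy : y ∈ P
    · rw [indicator_of_mem hy]
      set r := (c - ⟪v, (y : E)⟫) / a
      refine le_trans (measure_mono (t := Icc r (r + 1)) ?_) (by simp)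
      rintro t ⟨⟨x, s⟩, ⟨hx, hs⟩, hxy⟩
      have h := congrArg (fun z => ⟪v, z⟫) hxy
      simp only [hinv x hx s, glue, inner_add_right, real_inner_smul_right, ← ha] at h
      have : t = r + s := by
        simp only [r]
        field_simp
        linarith
      exact ⟨by linarith [hs.1], by linarith [hs.2]⟩
    · rw [indicator_of_notMem hy, nonpos_iff_eq_zero]
      convert (measure_empty (μ := (volume : Measure ℝ))) using 2
      refine eq_empty_of_forall_notMem ?_
      rintro t ⟨⟨x, s⟩, ⟨hx, _⟩, hxy⟩
      refine hy ⟨x, hx, ?_⟩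
      have h := congrArg (ℝ ∙ u)ᗮ.orthogonalProjectionOnto hxy
      simp only [proj_glue, map_add, map_smul,
        Submodule.orthogonalProjectionOnto_orthogonalComplement_singleton_eq_zero u,
        smul_zero, add_zero] at h
      exact h
  have heq : volume P = volume C := le_antisymm hle (by
    rw [volume_eq_lines hu hCc.measurableSet, ← lintegral_indicator_one hPc.measurableSet]
    exact lintegral_mono hline')
  rw [heq, volume_eq_slices hv hCc.measurableSet]
  set I : Set ℝ := (fun s => c + a * s) '' Icc (0 : ℝ) 1 with hI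
  have hIc : IsCompact I := isCompact_Icc.image (by fun_prop)
  have hIv : volume I = ENNReal.ofReal |a| := by
    have : I = (fun x => c + x) '' (a • Icc (0 : ℝ) 1) := by
      rw [hI, ← Set.image_smul, image_image]; rfl
    rw [this, image_add_left, measure_preimage_add, Measure.addHaar_smul]
    simp
  have hsl : ∀ t, volume (hslice v C t) = I.indicator (fun _ => volume (hslice v X c)) t := by
    intro t
    by_cases ht : t ∈ I
    · obtain ⟨s, hs, rfl⟩ := ht
      rw [indicator_of_mem (show _ ∈ I from mem_image_of_mem _ hs)]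
      set q := (ℝ ∙ v)ᗮ.orthogonalProjectionOnto (s • u) with hq
      have hsu : (q : E) + (a * s) • v = s • u := by
        have h := glue_proj hv (s • u)
        rwa [real_inner_smul_right, mul_comm] at h
      have : hslice v C (c + a * s) = (fun y => y + -q) ⁻¹' hslice v X c := by
        ext y
        constructor
        · rintro ⟨⟨x, s'⟩, ⟨hx, hs'⟩, hxy⟩
          have h := congrArg (fun z => ⟪v, z⟫) hxy
          simp only [hinv x hx s'] at h
          rw [show (y : E) + (c + a * s) • v = glue v (y, c + a * s) from rfl, inner_glue hv] at h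
          have hss : s' = s := mul_right_cancel₀ ha0 (by linarith)
          subst hss
          show ((y + -q : (ℝ ∙ v)ᗮ) : E) + c • v ∈ X
          convert hx using 1
          have hx' : x = (y : E) + (c + a * s') • v - s' • u := eq_sub_of_add_eq hxy
          rw [hx', ← hsu]
          push_cast
          rw [add_smul]
          abel
        · intro hy
          refine ⟨(_, s), ⟨hy, hs⟩, ?_⟩
          simp only [← hsu]
          push_cast
          rw [add_smul]
          abel
      rw [this, measure_preimage_add_right]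
    · rw [indicator_of_notMem ht]
      convert (measure_empty (μ := (volume : Measure (ℝ ∙ v)ᗮ))) using 2
      refine eq_empty_of_forall_notMem ?_
      rintro y ⟨⟨x, s⟩, ⟨hx, hs⟩, hxy⟩
      refine ht ⟨s, hs, ?_⟩
      have h := congrArg (fun z => ⟪v, z⟫) hxy
      simp only [hinv x hx s] at h
      rw [show (y : E) + t • v = glue v (y, t) from rfl, inner_glue hv] at h
      show c + a * s = t
      linarith
  rw [lintegral_congr hsl, lintegral_indicator hIc.measurableSet, setLIntegral_const, hIv, mul_comm]

/-- A section times the cosine is at most the shadow. -/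
theorem slice_le_shadow {v u : E} (hv : ‖v‖ = 1) (hu : ‖u‖ = 1) {X : Set E} (hX : IsCompact X)
    (t : ℝ) :
    ENNReal.ofReal |⟪v, u⟫| * volume (hslice v X t) ≤
      volume ((ℝ ∙ u)ᗮ.orthogonalProjectionOnto '' X) := by
  set Y := X ∩ {x | ⟪v, x⟫ = t} with hY
  have hYc : IsCompact Y := hX.inter_right (isClosed_eq (by fun_prop) (by fun_prop))
  have e : hslice v Y t = hslice v X t := by
    ext y
    simp only [hslice, hY, mem_setOf_eq, mem_inter_iff]
    exact and_iff_left (inner_glue hv (y, t))
  rw [← e, ← shadow_hyperplane hv hu hYc fun x hx => hx.2]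
  exact measure_mono (image_mono inter_subset_left)

end Vale.Agent.P237.AllN
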