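import Vale.Agent.P237.Main
import Vale.Agent.P237.AllN.Minkowski
import Vale.Agent.P237.AllN.Slice

/-!
# Facets, and basic facts about projection bodies
-/

namespace Vale.Agent.P237.AllN

open MeasureTheory Set Module Function
open scoped RealInnerProductSpace ENNReal Pointwise

variable {E : Type*} [NormedAddCommGroup E] [InnerProductSpace ℝ E] [FiniteDimensional ℝ E]
  [MeasurableSpace E] [BorelSpace E]

/-- The area of the facet with normal `v`. -/
noncomputable def facet (s : Finset E) (b : E → ℝ) (v : E) : ℝ :=
  volume.real (hslice v (poly s b) (b v))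

theorem facet_nonneg (s : Finset E) (b : E → ℝ) (v : E) : 0 ≤ facet s b v := measureReal_nonneg

theorem area_nonneg (K : Set E) (u : E) : 0 ≤ area K u := measureReal_nonneg

theorem area_congr (K : Set E) {u v : E} (h : (ℝ ∙ u) = ℝ ∙ v) : area K u = area K v := by
  have key : ∀ p q : Submodule ℝ E, p = q → volume.real (pᗮ.orthogonalProjectionOnto '' K) =
      volume.real (qᗮ.orthogonalProjectionOnto '' K) := by
    rintro p q rfl; rfl
  exact key _ _ h

theorem area_neg (K : Set E) (u : E) : area K (-u) = area K u :=
  area_congr K (Submodule.span_singleton_smul_eq (isUnit_one.neg : IsUnit (-1 : ℝ)) u ▸ by simp)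

theorem area_mono {K L : Set E} (hL : IsCompact L) (h : K ⊆ L) (u : E) : area K u ≤ area L u :=
  measureReal_mono (image_mono h)
    (hL.image (ContinuousLinearMap.continuous _)).measure_lt_top.ne

theorem projBody_mono {K L : Set E} (hL : IsCompact L) (h : K ⊆ L) : projBody K ⊆ projBody L :=
  fun _ hy u hu => (hy u hu).trans (area_mono hL h u)

theorem zero_mem_projBody (K : Set E) : (0 : E) ∈ projBody K := fun u _ => by
  rw [inner_zero_left]; exact area_nonneg K u

theorem isClosed_projBody (K : Set E) : IsClosed (projBody K) := by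
  simp only [projBody, ofPred_forall]
  exact isClosed_iInter fun u => isClosed_iInter fun _ =>
    isClosed_le (continuous_id.inner continuous_const) continuous_const

theorem convex_projBody (K : Set E) : Convex ℝ (projBody K) := by
  intro x hx y hy p q hp hq hpq u hu
  rw [inner_add_left, real_inner_smul_left, real_inner_smul_left]
  calc p * ⟪x, u⟫ + q * ⟪y, u⟫ ≤ p * area K u + q * area K u :=
        add_le_add (mul_le_mul_of_nonneg_left (hx u hu) hp) (mul_le_mul_of_nonneg_left (hy u hu) hq)
    _ = area K u := by rw [← add_mul, hpq, one_mul]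

theorem abs_inner_le_area {K : Set E} {x u : E} (hx : x ∈ projBody K) (hu : ‖u‖ = 1) :
    |⟪x, u⟫| ≤ area K u := by
  refine abs_le.2 ⟨?_, hx u hu⟩
  have h := hx (-u) (by simpa using hu)
  rw [inner_neg_right, area_neg] at h
  linarith

theorem isCompact_projBody (K : Set E) : IsCompact (projBody K) := by
  set e := stdOrthonormalBasis ℝ E
  refine (isCompact_closedBall 0 (∑ i, area K (e i))).of_isClosed_subset (isClosed_projBody K)
    fun x hx => mem_closedBall_zero_iff.2 ?_
  calc ‖x‖ = ‖∑ i, ⟪e i, x⟫ • e i‖ := by rw [e.sum_repr' x]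
    _ ≤ ∑ i, ‖⟪e i, x⟫ • e i‖ := norm_sum_le _ _
    _ ≤ _ := Finset.sum_le_sum fun i _ => by
      rw [norm_smul, e.norm_eq_one, mul_one, Real.norm_eq_abs, real_inner_comm]
      exact abs_inner_le_area hx (e.norm_eq_one i)

end Vale.Agent.P237.AllN
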