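import Mathlib

/-!
# The sharp one-dimensional inequality for powers of a concave function
-/

namespace Vale.Agent.P237.AllN

open Set MeasureTheory

/-- The comparison polynomial: `(k+1)² x^k - 1 - k(k+2) x^(k+1)`. -/
def psi (k : ℕ) (x : ℝ) : ℝ :=
  ((k : ℝ) + 1) ^ 2 * x ^ k - 1 - (k : ℝ) * (k + 2) * x ^ (k + 1)

/-- The point at which `psi k` is largest. -/
noncomputable def top (k : ℕ) : ℝ := ((k : ℝ) + 1) / (k + 2)

theorem top_pos (k : ℕ) : 0 < top k := by unfold top; positivity

theorem top_lt_one (k : ℕ) : top k < 1 := by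
  unfold top; rw [div_lt_one (by positivity)]; linarith

theorem hasDerivAt_psi (k : ℕ) (x : ℝ) :
    HasDerivAt (psi (k + 1))
      (((k : ℝ) + 1) * (k + 2) * x ^ k * (((k : ℝ) + 2) - (k + 3) * x)) x := by
  have h := ((((hasDerivAt_pow (k + 1) x).const_mul (((k : ℝ) + 1 + 1) ^ 2)).sub_const 1).sub
    ((hasDerivAt_pow (k + 1 + 1) x).const_mul (((k : ℝ) + 1) * ((k : ℝ) + 1 + 2))))
  have e : psi (k + 1) = fun x : ℝ => ((k : ℝ) + 1 + 1) ^ 2 * x ^ (k + 1) - 1 -
      ((k : ℝ) + 1) * ((k : ℝ) + 1 + 2) * x ^ (k + 1 + 1) := by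
    funext y; simp [psi]
  rw [e]
  refine h.congr_deriv ?_
  simp only [Nat.cast_add, Nat.cast_one, Nat.add_sub_cancel]
  ring

theorem continuous_psi (k : ℕ) : Continuous (psi k) := by unfold psi; fun_prop

theorem psi_one (k : ℕ) : psi k 1 = 0 := by simp [psi]; ring

theorem psi_mono (k : ℕ) : MonotoneOn (psi k) (Icc 0 (top k)) := by
  cases k with
  | zero => intro a _ b _ _; simp [psi]
  | succ k =>
    refine monotoneOn_of_hasDerivWithinAt_nonneg (convex_Icc _ _) (continuous_psi _).continuousOn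
      (fun x _ => (hasDerivAt_psi k x).hasDerivWithinAt) fun x hx => ?_
    rw [interior_Icc] at hx
    have h2 := hx.2
    simp only [top, Nat.cast_add, Nat.cast_one] at h2
    rw [lt_div_iff₀ (by positivity)] at h2
    have := hx.1.le
    exact mul_nonneg (by positivity) (by linarith)

theorem psi_anti (k : ℕ) : AntitoneOn (psi k) (Icc (top k) 1) := by
  cases k with
  | zero => intro a _ b _ _; simp [psi]
  | succ k =>
    refine antitoneOn_of_hasDerivWithinAt_nonpos (convex_Icc _ _) (continuous_psi _).continuousOn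
      (fun x _ => (hasDerivAt_psi k x).hasDerivWithinAt) fun x hx => ?_
    rw [interior_Icc] at hx
    have h2 := hx.1
    simp only [top, Nat.cast_add, Nat.cast_one] at h2
    rw [div_lt_iff₀ (by positivity)] at h2
    have := ((top_pos (k + 1)).trans hx.1).le
    exact mul_nonpos_of_nonneg_of_nonpos (by positivity) (by linarith)

theorem psi_nonneg (k : ℕ) {x : ℝ} (h : top k ≤ x) (h1 : x ≤ 1) : 0 ≤ psi k x :=
  psi_one k ▸ psi_anti k ⟨h, h1⟩ (right_mem_Icc.2 (top_lt_one k).le) h1

theorem integral_psi (k : ℕ) : ∫ x in (0 : ℝ)..1, psi k x = 0 := by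
  simp only [psi]
  rw [intervalIntegral.integral_sub, intervalIntegral.integral_sub,
    intervalIntegral.integral_const_mul, intervalIntegral.integral_const_mul, integral_pow,
    integral_pow, intervalIntegral.integral_const]
  · simp only [one_pow, zero_pow (Nat.succ_ne_zero _), sub_zero, smul_eq_mul, Nat.cast_add,
      Nat.cast_one]
    field_simp
    ring
  all_goals apply Continuous.intervalIntegrable
  all_goals fun_prop

/-- Powers of a bounded concave function on an interval are integrable. -/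
theorem integrable_pow {f : ℝ → ℝ} {c d m : ℝ} (hcd : c ≤ d) (hf : ConcaveOn ℝ (Icc c d) f)
    (h0 : ∀ t ∈ Icc c d, 0 ≤ f t) (hm : ∀ t ∈ Icc c d, f t ≤ m) (k : ℕ) :
    IntervalIntegrable (fun t => f t ^ k) volume c d := by
  have hc : ContinuousOn f (Ioo c d) := by
    have := hf.continuousOn_interior
    rwa [interior_Icc] at this
  rw [intervalIntegrable_iff_integrableOn_Ioo_of_le hcd]
  refine IntegrableOn.of_bound measure_Ioo_lt_top
    ((hc.pow k).aestronglyMeasurable measurableSet_Ioo) (m ^ k) ?_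
  filter_upwards [ae_restrict_mem measurableSet_Ioo] with t ht
  rw [norm_pow, Real.norm_of_nonneg (h0 t (Ioo_subset_Icc_self ht))]
  exact pow_le_pow_left₀ (h0 t (Ioo_subset_Icc_self ht)) (hm t (Ioo_subset_Icc_self ht)) k

theorem integrable_psi {f : ℝ → ℝ} {c d : ℝ} (hcd : c ≤ d) (hf : ConcaveOn ℝ (Icc c d) f)
    (h0 : ∀ t ∈ Icc c d, 0 ≤ f t) (h1 : ∀ t ∈ Icc c d, f t ≤ 1) (k : ℕ) :
    IntervalIntegrable (fun t => psi k (f t)) volume c d :=
  (((integrable_pow hcd hf h0 h1 k).const_mul _).sub intervalIntegrable_const).sub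
    ((integrable_pow hcd hf h0 h1 (k + 1)).const_mul _)

/-- Right end case, normalised maximum. -/
theorem layer_right (k : ℕ) {g : ℝ → ℝ} {L : ℝ} (hL : 0 ≤ L) (hg : ConcaveOn ℝ (Icc 0 L) g)
    (h0 : ∀ t ∈ Icc (0 : ℝ) L, 0 ≤ g t) (h1 : ∀ t ∈ Icc (0 : ℝ) L, g t ≤ 1) (hgL : g L = 1) :
    0 ≤ ∫ t in (0 : ℝ)..L, psi k (g t) := by
  rcases hL.eq_or_lt with rfl | hL'
  · simp
  have hint := integrable_psi hL hg h0 h1 k
  set x := top k with hx
  have hx0 : 0 < x := top_pos k
  have hx1 : x < 1 := top_lt_one k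
  have hch : ∀ s t, 0 ≤ s → s ≤ t → t ≤ L → 0 < t → s / t * g t ≤ g s := by
    intro s t hs hst htL ht
    have ha : 0 ≤ 1 - s / t := by linarith [(div_le_one ht).2 hst]
    have := hg.2 (left_mem_Icc.2 hL) (⟨ht.le, htL⟩ : t ∈ Icc (0 : ℝ) L) ha (div_nonneg hs ht.le)
      (by ring)
    simp only [smul_eq_mul, mul_zero, zero_add, div_mul_cancel₀ s ht.ne'] at this
    nlinarith [mul_nonneg ha (h0 0 (left_mem_Icc.2 hL))]
  set S := {t | t ∈ Icc (0 : ℝ) L ∧ x ≤ g t} with hS
  have hLS : L ∈ S := ⟨right_mem_Icc.2 hL, by rw [hgL]; exact hx1.le⟩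
  have hbdd : BddBelow S := ⟨0, fun t ht => ht.1.1⟩
  set p := sInf S with hp
  have hp0 : 0 ≤ p := le_csInf ⟨L, hLS⟩ fun t ht => ht.1.1
  have hhigh : ∀ t, p < t → t ≤ L → x ≤ g t := by
    intro t ht htL
    obtain ⟨s, hs, hst⟩ := exists_lt_of_csInf_lt ⟨L, hLS⟩ (hp ▸ ht)
    exact (le_min hs.2 hLS.2).trans (hg.min_le_of_mem_Icc hs.1 hLS.1 ⟨hst.le, htL⟩)
  have hlow : ∀ t, 0 ≤ t → t < p → t ≤ L → g t < x := by
    intro t ht htp htL
    by_contra hc
    push Not at hc
    exact not_lt.2 (csInf_le hbdd ⟨⟨ht, htL⟩, hc⟩) htp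
  have hxL : x * L ≤ L := by nlinarith
  have hpL : p ≤ x * L := csInf_le hbdd ⟨⟨by positivity, hxL⟩, by
    have := hch (x * L) L (by positivity) hxL le_rfl hL'
    rwa [hgL, mul_div_assoc, div_self hL'.ne', mul_one, mul_one] at this⟩
  have hpos : ∀ t, p < t → t ≤ L → 0 ≤ psi k (g t) := fun t ht htL =>
    psi_nonneg k (hhigh t ht htL) (h1 t ⟨hp0.trans ht.le, htL⟩)
  rcases hp0.eq_or_lt with hp' | hp'
  · refine intervalIntegral.integral_nonneg_of_ae_restrict hL ?_
    rw [← Measure.restrict_congr_set (Ioo_ae_eq_Icc (μ := volume))]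
    filter_upwards [ae_restrict_mem measurableSet_Ioo] with t ht
    exact hpos t (hp' ▸ ht.1) ht.2.le
  set q := p / x with hq
  have hqL : q ≤ L := by rw [hq, div_le_iff₀ hx0]; linarith
  have hq0 : 0 < q := div_pos hp' hx0
  have hpq : p ≤ q := by rw [hq, le_div_iff₀ hx0]; nlinarith
  have hint1 : IntervalIntegrable (fun t => psi k (g t)) volume 0 q :=
    hint.mono_set (by rw [uIcc_of_le hq0.le, uIcc_of_le hL]; exact Icc_subset_Icc_right hqL)
  have hint2 : IntervalIntegrable (fun t => psi k (g t)) volume q L :=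
    hint.mono_set (by rw [uIcc_of_le hqL, uIcc_of_le hL]; exact Icc_subset_Icc_left hq0.le)
  rw [← intervalIntegral.integral_add_adjacent_intervals hint1 hint2]
  have hline : ∫ t in (0 : ℝ)..q, psi k (t / q) = 0 := by
    rw [intervalIntegral.integral_comp_div (psi k) hq0.ne', zero_div, div_self hq0.ne',
      integral_psi, smul_zero]
  refine add_nonneg ?_ (intervalIntegral.integral_nonneg hqL fun t ht => ?_)
  · refine hline.symm.le.trans ?_
    refine intervalIntegral.integral_mono_on_of_le_Ioo hq0.le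
      (((continuous_psi k).comp (continuous_id.div_const q)).intervalIntegrable _ _) hint1
      fun t ht => ?_
    have htL : t ≤ L := ht.2.le.trans hqL
    have htq : t / q = x * t / p := by rw [hq]; field_simp
    have ht1 : t / q ≤ 1 := (div_le_one hq0).2 ht.2.le
    have ht0 : 0 ≤ t / q := div_nonneg ht.1.le hq0.le
    have hg0 : 0 ≤ g t := h0 t ⟨ht.1.le, htL⟩
    have hg1 : g t ≤ 1 := h1 t ⟨ht.1.le, htL⟩
    have hA1 : t ≤ p → t / q ≤ g t := by
      intro htp
      by_contra hc
      push Not at hc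
      rw [htq, lt_div_iff₀ hp'] at hc
      obtain ⟨s, hps, hsL, hs2⟩ : ∃ s, p < s ∧ s ≤ L ∧ g t * s < x * t := by
        rcases hg0.eq_or_lt with hz | hz
        · exact ⟨L, lt_of_le_of_lt hpL (by nlinarith), le_rfl,
            by rw [← hz, zero_mul]; exact mul_pos hx0 ht.1⟩
        · have hlt : p < x * t / g t := by rw [lt_div_iff₀ hz]; linarith
          have hpL' : p < L := lt_of_le_of_lt hpL (by nlinarith)
          refine ⟨min L ((p + x * t / g t) / 2), lt_min hpL' (by linarith),
            min_le_left _ _, lt_of_le_of_lt (mul_le_mul_of_nonneg_left (min_le_right _ _) hg0) ?_⟩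
          have : g t * (x * t / g t) = x * t := by field_simp
          nlinarith
      have hs0 : 0 < s := hp'.trans hps
      have := hch t s ht.1.le (htp.trans hps.le) hsL hs0
      rw [div_mul_eq_mul_div, div_le_iff₀ hs0] at this
      nlinarith [hhigh s hps hsL, ht.1]
    have hA2 : p ≤ t → x ≤ g t → g t ≤ t / q := by
      intro htp hgx
      by_contra hc
      push Not at hc
      rw [htq, div_lt_iff₀ hp'] at hc
      have hg' : 0 < g t := hx0.trans_le hgx
      have hlt : x * t / g t < p := by rw [div_lt_iff₀ hg']; linarith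
      have hnn : 0 ≤ x * t / g t := div_nonneg (mul_nonneg hx0.le ht.1.le) hg'.le
      set s := (p + x * t / g t) / 2 with hs
      have hs1 : s < p := by rw [hs]; linarith
      have := hch s t (by rw [hs]; linarith) (by linarith) htL ht.1
      rw [div_mul_eq_mul_div, div_le_iff₀ ht.1] at this
      have h2 := hlow s (by rw [hs]; linarith) hs1 (by linarith)
      have h3 : g t * (x * t / g t) = x * t := by field_simp
      have h4 : x * t < s * g t := by rw [hs]; nlinarith
      nlinarith [ht.1]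
    rcases lt_trichotomy t p with htp | htp | htp
    · have hB : t / q ≤ x := by rw [htq, div_le_iff₀ hp']; nlinarith
      exact psi_mono k ⟨ht0, hB⟩ ⟨hg0, (hlow t ht.1.le htp htL).le⟩ (hA1 htp.le)
    · have h23 : t / q = x := by rw [htq, htp]; field_simp
      have h₁ := hA1 htp.le
      have h₂ := hA2 htp.ge (by linarith)
      rw [show g t = t / q by linarith]
    · exact psi_anti k ⟨hhigh t htp htL, hg1⟩
        ⟨by rw [htq, le_div_iff₀ hp']; nlinarith, ht1⟩ (hA2 htp.le (hhigh t htp htL))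
  · rcases (hpq.trans ht.1).eq_or_lt with h | h
    · have hqp : q = p := le_antisymm (by linarith [ht.1]) hpq
      rw [hq, div_eq_iff hx0.ne'] at hqp
      nlinarith
    · exact hpos t h ht.2

/-- For a concave `0 ≤ f ≤ m` attaining `m` on `[c, d]`:
`m^(k+1) (d - c) + k (k+2) ∫ f^(k+1) ≤ (k+1)² m ∫ f^k`, with equality for constants and for
linear functions vanishing at an end. -/
theorem layer (k : ℕ) {f : ℝ → ℝ} {c d x₀ m : ℝ} (hf : ConcaveOn ℝ (Icc c d) f)
    (h0 : ∀ t ∈ Icc c d, 0 ≤ f t) (hm : ∀ t ∈ Icc c d, f t ≤ m) (hx : x₀ ∈ Icc c d)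
    (hfx : f x₀ = m) :
    m ^ (k + 1) * (d - c) + (k : ℝ) * (k + 2) * (∫ t in c..d, f t ^ (k + 1)) ≤
      ((k : ℝ) + 1) ^ 2 * m * ∫ t in c..d, f t ^ k := by
  have hcd : c ≤ d := hx.1.trans hx.2
  rcases (hfx ▸ h0 x₀ hx : 0 ≤ m).eq_or_lt with hm0 | hm0
  · have : ∫ t in c..d, f t ^ (k + 1) = 0 := by
      rw [intervalIntegral.integral_congr (g := fun _ => (0 : ℝ))]
      · simp
      · intro t ht
        rw [uIcc_of_le hcd] at ht
        simp [le_antisymm (by linarith [hm t ht]) (h0 t ht)]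
    rw [this, ← hm0]
    simp
  have hh0 : ∀ t ∈ Icc c d, 0 ≤ f t / m := fun t ht => div_nonneg (h0 t ht) hm0.le
  have hh1 : ∀ t ∈ Icc c d, f t / m ≤ 1 := fun t ht => (div_le_one hm0).2 (hm t ht)
  have hhc : ConcaveOn ℝ (Icc c d) fun t => f t / m := by
    simpa [div_eq_inv_mul] using hf.smul (inv_nonneg.2 hm0.le)
  have hhx : f x₀ / m = 1 := by rw [hfx, div_self hm0.ne']
  have halfL : 0 ≤ ∫ t in c..x₀, psi k (f t / m) := by
    have hmem : ∀ t ∈ Icc (0 : ℝ) (x₀ - c), t + c ∈ Icc c d := fun t ht =>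
      ⟨by linarith [ht.1], by linarith [ht.2, hx.2]⟩
    have hg : ConcaveOn ℝ (Icc 0 (x₀ - c)) fun t => f (t + c) / m := by
      refine ⟨convex_Icc _ _, fun a ha b hb p q hp hq hpq => ?_⟩
      have := hhc.2 (hmem a ha) (hmem b hb) hp hq hpq
      simp only [smul_eq_mul] at this ⊢
      rwa [show p * a + q * b + c = p * (a + c) + q * (b + c) by linear_combination (-c) * hpq]
    have h := layer_right k (by linarith [hx.1]) hg (fun t ht => hh0 _ (hmem t ht))
      (fun t ht => hh1 _ (hmem t ht)) (by simpa using hhx)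
    rwa [intervalIntegral.integral_comp_add_right (fun t => psi k (f t / m)), zero_add,
      sub_add_cancel] at h
  have halfR : 0 ≤ ∫ t in x₀..d, psi k (f t / m) := by
    have hmem : ∀ t ∈ Icc (0 : ℝ) (d - x₀), d - t ∈ Icc c d := fun t ht =>
      ⟨by linarith [ht.2, hx.1], by linarith [ht.1]⟩
    have hg : ConcaveOn ℝ (Icc 0 (d - x₀)) fun t => f (d - t) / m := by
      refine ⟨convex_Icc _ _, fun a ha b hb p q hp hq hpq => ?_⟩
      have := hhc.2 (hmem a ha) (hmem b hb) hp hq hpq
      simp only [smul_eq_mul] at this ⊢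
      rwa [show d - (p * a + q * b) = p * (d - a) + q * (d - b) by linear_combination (-d) * hpq]
    have h := layer_right k (by linarith [hx.2]) hg (fun t ht => hh0 _ (hmem t ht))
      (fun t ht => hh1 _ (hmem t ht)) (by simpa using hhx)
    rwa [intervalIntegral.integral_comp_sub_left (fun t => psi k (f t / m)), sub_sub_cancel,
      sub_zero] at h
  have hI := integrable_psi hcd hhc hh0 hh1 k
  have hsum : 0 ≤ ∫ t in c..d, psi k (f t / m) := by
    rw [← intervalIntegral.integral_add_adjacent_intervals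
      (hI.mono_set (uIcc_subset_uIcc left_mem_uIcc (by rwa [uIcc_of_le hcd])))
      (hI.mono_set (uIcc_subset_uIcc (by rwa [uIcc_of_le hcd]) right_mem_uIcc))]
    exact add_nonneg halfL halfR
  have hk := integrable_pow hcd hhc hh0 hh1 k
  have hk1 := integrable_pow hcd hhc hh0 hh1 (k + 1)
  have hexp : ∫ t in c..d, psi k (f t / m) = ((k : ℝ) + 1) ^ 2 * (∫ t in c..d, f t ^ k) / m ^ k -
      (d - c) - (k : ℝ) * (k + 2) * (∫ t in c..d, f t ^ (k + 1)) / m ^ (k + 1) := by
    simp only [psi]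
    rw [intervalIntegral.integral_sub ((hk.const_mul _).sub intervalIntegrable_const)
        (hk1.const_mul _), intervalIntegral.integral_sub (hk.const_mul _) intervalIntegrable_const,
      intervalIntegral.integral_const_mul, intervalIntegral.integral_const_mul,
      intervalIntegral.integral_const]
    simp only [div_pow, intervalIntegral.integral_div, smul_eq_mul, mul_one]
    ring
  rw [hexp] at hsum
  have h := mul_nonneg (pow_pos hm0 (k + 1)).le hsum
  have e1 : m ^ (k + 1) * (((k : ℝ) + 1) ^ 2 * (∫ t in c..d, f t ^ k) / m ^ k) =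
      ((k : ℝ) + 1) ^ 2 * m * ∫ t in c..d, f t ^ k := by
    rw [pow_succ]; field_simp
  have e2 : m ^ (k + 1) * ((k : ℝ) * (k + 2) * (∫ t in c..d, f t ^ (k + 1)) / m ^ (k + 1)) =
      (k : ℝ) * (k + 2) * ∫ t in c..d, f t ^ (k + 1) := by
    field_simp
  rw [mul_sub, mul_sub, e1, e2] at h
  linarith

end Vale.Agent.P237.AllN
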