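import Vale.Agent.P237.AllN.Poly
import Vale.Agent.P237.AllN.Approx
import Vale.Agent.P237.General.Position

/-!
# The bound in every dimension
-/

namespace Vale.Agent.P237.AllN

open MeasureTheory Set Module
open scoped RealInnerProductSpace ENNReal Pointwise

universe u

/-- The directions with the quartic gain, in any three-dimensional space. -/
theorem directions_three {E : Type u} [NormedAddCommGroup E] [InnerProductSpace ℝ E]
    [FiniteDimensional ℝ E] (hfin : finrank ℝ E = 3) (s : Finset E) (A : E → ℝ)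
    (hA : ∀ v ∈ s, 0 < A v) (hv : ∀ v ∈ s, v ≠ 0)
    (hspan : Submodule.span ℝ (id '' (s : Set E)) = ⊤) :
    ∃ d : E → E, (∀ v ∈ s, 0 < ⟪v, d v⟫) ∧
      3 * (√5 - 1) ≤ ∑ v ∈ s, A v * ⟪v, d v⟫ / ((∑ j ∈ s, A j * |⟪j, d v⟫|) / 2) := by
  set e : E ≃ₗᵢ[ℝ] EuclideanSpace ℝ (Fin 3) :=
    ((stdOrthonormalBasis ℝ E).reindex (finCongr hfin)).repr
  obtain ⟨d, hd, hle⟩ := General.exists_directions s A (fun v => e v) hA
    (fun v hvs h => hv v hvs (e.injective (by rw [h, map_zero]))) (by
      rw [image_id] at hspan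
      have h := congrArg (Submodule.map e.toLinearEquiv.toLinearMap) hspan
      rw [Submodule.map_span, Submodule.map_top, LinearMap.range_eq_top.2 e.surjective] at h
      exact h)
  have key : ∀ x y : E, ∀ z, e y = z → ⟪e x, z⟫ = ⟪x, y⟫ := fun x y z h => by
    rw [← h, e.inner_map_map]
  refine ⟨fun v => e.symm (d v), fun v hvs => ?_, ?_⟩
  · rw [← key v _ _ (e.apply_symm_apply (d v))]; exact hd v hvs
  · simp only [key _ _ _ (e.apply_symm_apply _)] at hle
    exact hle

/-- The bound in every dimension at least two. -/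
theorem bound : ∀ n, 2 ≤ n → ∀ {E : Type u} [NormedAddCommGroup E] [InnerProductSpace ℝ E]
    [FiniteDimensional ℝ E] [MeasurableSpace E] [BorelSpace E], finrank ℝ E = n →
    ∀ K : Set E, IsCompact K → Convex ℝ K →
      c n * volume.real K ^ (n - 1) ≤ volume.real (projBody K) := by
  intro n
  induction n using Nat.strong_induction_on with
  | _ n ih => ?_
  intro hn E _ _ _ _ _ hfin K hK hKc
  rcases eq_or_lt_of_le hn with rfl | h2
  · simpa [c] using planar hfin hK hKc
  obtain ⟨k, rfl⟩ : ∃ k, n = k + 3 := ⟨n - 3, by omega⟩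
  have H : ∀ v : E, ‖v‖ = 1 → ∀ L : Set (ℝ ∙ v)ᗮ, IsCompact L → Convex ℝ L →
      c (k + 2) * volume.real L ^ (k + 1) ≤ volume.real (projBody L) := by
    intro v hv L hL hLc
    have : Fact (finrank ℝ E = (k + 2) + 1) := ⟨hfin⟩
    have hF : finrank ℝ (ℝ ∙ v)ᗮ = k + 2 :=
      Submodule.finrank_orthogonal_span_singleton (norm_ne_zero_iff.1 (by simp [hv]))
    have h := ih (k + 2) (by omega) (by omega) (E := (ℝ ∙ v)ᗮ) hF L hL hLc
    rwa [show k + 2 - 1 = k + 1 by omega] at h
  have : Nontrivial E := Module.nontrivial_of_finrank_eq_succ hfin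
  rw [← hfin]
  refine body_of_poly (by omega) (fun s b hs hb hP => ?_) (c_nonneg _) hK hKc
  rw [hfin]
  rcases k with _ | k
  · have h5 : (2 : ℝ) ≤ √5 := (Real.le_sqrt' (by norm_num)).2 (by norm_num)
    have h := poly_step 1 (R := c 2) (γ := 3 * (√5 - 1)) (c_nonneg 2) (by linarith) hfin H
      (fun s A hA hv hsp => directions_three hfin s A hA hv hsp) hs hb hP
    rw [show c 2 = 4 from rfl, step_one] at h
    exact h
  · have hs4 : (1 : ℝ) ≤ √((k : ℝ) + 4) := (Real.one_le_sqrt).2 (by linarith [(k : ℕ).cast_nonneg (α := ℝ)])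
    have h := poly_step (k + 2) (R := c (k + 3)) (γ := 2 * √((k : ℝ) + 4)) (c_nonneg _)
      (by linarith) hfin H (fun s A hA hv hsp => by
        obtain ⟨d, hd, hle⟩ := General.exists_directions_sqrt s A id hA hv hsp
        refine ⟨d, hd, le_trans (le_of_eq ?_) hle⟩
        rw [hfin]
        push_cast
        ring_nf) hs hb hP
    exact h

end Vale.Agent.P237.AllN
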