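import Vale.Agent.P237.AllN.Step
import Vale.Agent.P237.AllN.Cauchy

/-!
# One induction step for polytopes
-/

namespace Vale.Agent.P237.AllN

open MeasureTheory Set Module Function
open scoped RealInnerProductSpace ENNReal Pointwise Topology

set_option linter.unusedSectionVars false

variable {E : Type*} [NormedAddCommGroup E] [InnerProductSpace ℝ E] [FiniteDimensional ℝ E]
  [MeasurableSpace E] [BorelSpace E]

/-- The profile of a convex body along a unit vector. -/
theorem profile {v : E} (hv : ‖v‖ = 1) (k : ℕ) (hfin : finrank ℝ E = k + 2) {X : Set E}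
    (hX : IsCompact X) (hXc : Convex ℝ X) (hV : 0 < volume.real X) :
    ∃ c d x₀ : ℝ, c ≤ d ∧ x₀ ∈ Icc c d ∧ 0 < vroot (hslice v X x₀) ∧
      (∀ x ∈ X, c ≤ ⟪v, x⟫ ∧ ⟪v, x⟫ ≤ d) ∧
      (∀ t ∈ Icc c d, (hslice v X t).Nonempty) ∧
      (∀ t ∈ Icc c d, vroot (hslice v X t) ≤ vroot (hslice v X x₀)) ∧
      volume.real X = ∫ t in c..d, vroot (hslice v X t) ^ (k + 1) := by
  have : Fact (finrank ℝ E = (k + 1) + 1) := ⟨hfin⟩
  have hF : finrank ℝ (ℝ ∙ v)ᗮ = k + 1 :=
    Submodule.finrank_orthogonal_span_singleton (norm_ne_zero_iff.1 (by simp [hv]))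
  have : Nontrivial (ℝ ∙ v)ᗮ := Module.nontrivial_of_finrank_eq_succ hF
  have hXn : X.Nonempty := nonempty_iff_ne_empty.2 fun h => by simp [h] at hV
  obtain ⟨xc, hxc, hmin⟩ := hX.exists_isMinOn (f := fun x => ⟪v, x⟫) hXn (by fun_prop)
  obtain ⟨xd, hxd, hmax'⟩ := hX.exists_isMaxOn (f := fun x => ⟪v, x⟫) hXn (by fun_prop)
  set c := ⟪v, xc⟫
  set d := ⟪v, xd⟫
  have hcd : c ≤ d := hmin hxd
  have hrange : ∀ x ∈ X, c ≤ ⟪v, x⟫ ∧ ⟪v, x⟫ ≤ d := fun x hx => ⟨hmin hx, hmax' hx⟩
  have hne : ∀ t ∈ Icc c d, (hslice v X t).Nonempty := by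
    intro t ht
    obtain ⟨p, q, hp, hq, hpq, he⟩ : t ∈ segment ℝ c d := by rwa [segment_eq_Icc hcd]
    refine ⟨(ℝ ∙ v)ᗮ.orthogonalProjectionOnto (p • xc + q • xd), ?_⟩
    have e : ⟪v, p • xc + q • xd⟫ = t := by
      rw [inner_add_right, real_inner_smul_right, real_inner_smul_right, ← he]; rfl
    show _ + t • v ∈ X
    rw [← e]
    have := glue_proj hv (p • xc + q • xd)
    rw [glue] at this
    rw [this]
    exact hXc hxc hxd hp hq hpq
  have hcc := concaveOn_vroot_hslice v hX hXc hne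
  obtain ⟨x₀, hx₀, hmax⟩ := exists_max_hslice v hX hcd
  have hint := integrable_pow hcd hcc (fun t _ => vroot_nonneg _) hmax (k + 1)
  have hIon : IntegrableOn (fun t => vroot (hslice v X t) ^ (k + 1)) (Icc c d) :=
    (integrableOn_Icc_iff_integrableOn_Ioc (by finiteness)).2
      ((intervalIntegrable_iff_integrableOn_Ioc_of_le hcd).1 hint)
  have hvol : volume.real X = ∫ t in c..d, vroot (hslice v X t) ^ (k + 1) := by
    have hpow : ∀ t, ENNReal.ofReal (vroot (hslice v X t) ^ (k + 1)) = volume (hslice v X t) := by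
      intro t
      rw [← hF, vroot_pow, measureReal_def,
        ENNReal.ofReal_toReal (isCompact_hslice v hX t).measure_lt_top.ne]
    have h1 : volume X = ∫⁻ t in Icc c d, volume (hslice v X t) := by
      rw [volume_eq_slices hv hX.measurableSet, setLIntegral_eq_of_support_subset]
      intro t ht
      by_contra h
      refine ht ?_
      have : hslice v X t = ∅ := eq_empty_of_forall_notMem fun y hy => h (by
        have := hrange _ hy
        rwa [show (y : E) + t • v = glue v (y, t) from rfl, inner_glue hv] at this)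
      simp [this]
    rw [measureReal_def, h1, ← lintegral_congr hpow,
      ← ofReal_integral_eq_lintegral_ofReal hIon
        (Filter.Eventually.of_forall fun t => pow_nonneg (vroot_nonneg _) _),
      ENNReal.toReal_ofReal (setIntegral_nonneg measurableSet_Icc fun t _ =>
        pow_nonneg (vroot_nonneg _) _),
      intervalIntegral.integral_of_le hcd, integral_Icc_eq_integral_Ioc]
  refine ⟨c, d, x₀, hcd, hx₀, ?_, hrange, hne, hmax, hvol⟩
  refine lt_of_le_of_ne (vroot_nonneg _) fun h0 => hV.ne' ?_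
  rw [hvol]
  refine le_antisymm ?_ (intervalIntegral.integral_nonneg hcd fun t _ => pow_nonneg (vroot_nonneg _) _)
  refine (intervalIntegral.integral_mono_on hcd hint (intervalIntegrable_const (c := (0 : ℝ)))
    fun t ht => ?_).trans (by simp)
  refine (pow_le_pow_left₀ (vroot_nonneg _) ((hmax t ht).trans h0.ge) _).trans ?_
  simp

/-- The largest section times the cosine is at most the shadow. -/
theorem max_mul_le {v u : E} (hv : ‖v‖ = 1) (hu : ‖u‖ = 1) {X : Set E} (hX : IsCompact X) (t : ℝ) :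
    |⟪v, u⟫| * volume.real (hslice v X t) ≤ area X u := by
  have h := ENNReal.toReal_mono (hX.image (ContinuousLinearMap.continuous _)).measure_lt_top.ne
    (slice_le_shadow hv hu hX t)
  rwa [ENNReal.toReal_mul, ENNReal.toReal_ofReal (abs_nonneg _)] at h

/-- The step from dimension `k + 1` to `k + 2` for polytopes. -/
theorem poly_step (k : ℕ) {R γ : ℝ} (hR : 0 ≤ R) (hγ : 2 ≤ γ) (hfin : finrank ℝ E = k + 2)
    (H : ∀ v : E, ‖v‖ = 1 → ∀ L : Set (ℝ ∙ v)ᗮ, IsCompact L → Convex ℝ L →
      R * volume.real L ^ k ≤ volume.real (projBody L))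
    (D : ∀ (s : Finset E) (A : E → ℝ), (∀ v ∈ s, 0 < A v) → (∀ v ∈ s, v ≠ 0) →
      Submodule.span ℝ (id '' (s : Set E)) = ⊤ → ∃ d : E → E, (∀ v ∈ s, 0 < ⟪v, d v⟫) ∧
        γ ≤ ∑ v ∈ s, A v * ⟪v, d v⟫ / ((∑ j ∈ s, A j * |⟪j, d v⟫|) / 2))
    {s : Finset E} {b : E → ℝ} (hs1 : ∀ v ∈ s, ‖v‖ = 1) (hb : ∀ v ∈ s, 0 < b v)
    (hP : IsCompact (poly s b)) :
    R * step k γ * volume.real (poly s b) ^ (k + 1) ≤ volume.real (projBody (poly s b)) := by
  classical
  have : Nontrivial E := Module.nontrivial_of_finrank_eq_succ hfin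
  set P := poly s b with hPdef
  have hPc : Convex ℝ P := convex_poly s b
  set A := facet s b with hA
  set g : E → ℝ := fun v => A v / 2 with hg
  set Z := zono s g with hZ
  -- the origin is inside
  obtain ⟨r, hr, hball⟩ : ∃ r > 0, Metric.closedBall (0 : E) r ⊆ P := by
    have hopen : IsOpen {x : E | ∀ v ∈ s, ⟪v, x⟫ < b v} := by
      simp only [ofPred_forall]
      exact isOpen_biInter_finset fun v _ => isOpen_lt (by fun_prop) continuous_const
    obtain ⟨r, hr, h⟩ := Metric.nhds_basis_closedBall.mem_iff.1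
      (hopen.mem_nhds (x := 0) fun v hv => by simpa using hb v hv)
    exact ⟨r, hr, h.trans fun x hx v hv => (hx v hv).le⟩
  set V := volume.real P with hVdef
  have hV : 0 < V := by
    refine ENNReal.toReal_pos (Measure.measure_pos_of_nonempty_interior volume ⟨0, ?_⟩).ne'
      hP.measure_lt_top.ne
    exact interior_mono hball (mem_interior_iff_mem_nhds.2 (Metric.closedBall_mem_nhds 0 hr))
  have harea : ∀ u : E, ‖u‖ = 1 → area P u = (∑ v ∈ s, A v * |⟪v, u⟫|) / 2 := fun u hu =>
    area_poly hs1 hP hu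
  -- profiles
  choose! c d x₀ hcd hx₀ hm hrange hne hmax hvol using
    fun (v : E) (hv : ‖v‖ = 1) => profile hv k hfin hP hPc hV
  set M : E → ℝ := fun v => vroot (hslice v P (x₀ v)) ^ (k + 1) with hM
  set w : E → ℝ := fun v => d v - c v with hw
  set s' := s.filter fun v => 0 < A v with hs'
  have hmem : ∀ v ∈ s', v ∈ s ∧ 0 < A v := fun v hv => Finset.mem_filter.1 hv
  have hrest : ∀ f : E → ℝ, ∑ v ∈ s', A v * f v = ∑ v ∈ s, A v * f v := fun f =>
    Finset.sum_subset (Finset.filter_subset _ _) fun v hv hv' => by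
      rw [le_antisymm (not_lt.1 fun h => hv' (Finset.mem_filter.2 ⟨hv, h⟩)) (facet_nonneg s b v),
        zero_mul]
  have hMle : ∀ v u : E, ‖v‖ = 1 → ‖u‖ = 1 → |⟪v, u⟫| * M v ≤ (∑ z ∈ s', A z * |⟪z, u⟫|) / 2 := by
    intro v u hv hu
    have : Fact (finrank ℝ E = (k + 1) + 1) := ⟨hfin⟩
    have hF : finrank ℝ (ℝ ∙ v)ᗮ = k + 1 :=
      Submodule.finrank_orthogonal_span_singleton (norm_ne_zero_iff.1 (by simp [hv]))
    have : Nontrivial (ℝ ∙ v)ᗮ := Module.nontrivial_of_finrank_eq_succ hF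
    rw [hrest fun z => |⟪z, u⟫|, ← harea u hu, hM]
    simp only
    rw [← hF, vroot_pow]
    exact max_mul_le hv hu hP _
  have hspan : Submodule.span ℝ (id '' (s' : Set E)) = ⊤ := by
    rw [← Submodule.orthogonal_eq_bot_iff, eq_bot_iff]
    intro y hy
    rw [Submodule.mem_bot]
    by_contra hne'
    set u := ‖y‖⁻¹ • y
    have hu : ‖u‖ = 1 := norm_smul_inv_norm hne'
    have h := hMle u u hu hu
    rw [real_inner_self_eq_norm_sq, hu, one_pow, abs_one, one_mul,
      Finset.sum_eq_zero fun z hz => ?_, zero_div] at h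
    · exact (pow_pos (hm u hu) (k + 1)).not_ge h
    · have := Submodule.inner_right_of_mem_orthogonal
        (Submodule.subset_span (show z ∈ id '' (s' : Set E) from ⟨z, hz, rfl⟩)) hy
      simp [u, real_inner_smul_right, this]
  obtain ⟨e, he, hY⟩ := D s' A (fun v hv => (hmem v hv).2)
    (fun v hv => norm_ne_zero_iff.1 (by simp [hs1 v (hmem v hv).1])) hspan
  have hAM : γ ≤ ∑ v ∈ s', A v / M v := by
    refine hY.trans (Finset.sum_le_sum fun v hv => ?_)
    have hv1 := hs1 v (hmem v hv).1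
    have hMv : 0 < M v := pow_pos (hm v hv1) _
    have he0 : e v ≠ 0 := fun h => by simpa [h] using he v hv
    have hn : 0 < ‖e v‖ := norm_pos_iff.2 he0
    have h := hMle v (‖e v‖⁻¹ • e v) hv1 (norm_smul_inv_norm he0)
    simp only [real_inner_smul_right, abs_mul, abs_of_pos (inv_pos.2 hn), abs_of_pos (he v hv)] at h
    have e2 : ∑ z ∈ s', A z * (‖e v‖⁻¹ * |⟪z, e v⟫|) =
        ‖e v‖⁻¹ * ∑ z ∈ s', A z * |⟪z, e v⟫| := by
      rw [Finset.mul_sum]; exact Finset.sum_congr rfl fun z _ => by ring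
    rw [e2, mul_assoc, mul_div_assoc] at h
    have h' := le_of_mul_le_mul_left h (inv_pos.2 hn)
    have hpos : 0 < (∑ z ∈ s', A z * |⟪z, e v⟫|) / 2 :=
      lt_of_lt_of_le (mul_pos (he v hv) hMv) h'
    rw [div_le_div_iff₀ hpos hMv, mul_assoc]
    exact mul_le_mul_of_nonneg_left h' (hmem v hv).2.le
  have hwV : 2 * ((k : ℝ) + 2) * V ≤ ∑ v ∈ s', A v * w v := by
    have h := two_mul_volume_le (w := w) hs1 hb hP fun v hv x hx y hy => by
      have := hrange v (hs1 v hv) x hx
      have := hrange v (hs1 v hv) y hy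
      simp only [hw]
      linarith
    rw [hrest w]
    refine le_trans (le_of_eq ?_) (h.trans_eq (Finset.sum_congr rfl fun v _ => mul_comm _ _))
    rw [hfin, hVdef]
    push_cast
    ring
  set S : E → ℝ := fun v => area Z v with hS'
  have hS : ∀ v ∈ s', R * (V ^ (k + 1) / M v *
      ((M v * w v / V + k * (k + 2)) / ((k : ℝ) + 1) ^ 2) ^ (k + 1)) ≤ S v := by
    intro v hv
    have hv1 := hs1 v (hmem v hv).1
    have : Fact (finrank ℝ E = (k + 1) + 1) := ⟨hfin⟩
    have hF : finrank ℝ (ℝ ∙ v)ᗮ = k + 1 :=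
      Submodule.finrank_orthogonal_span_singleton (norm_ne_zero_iff.1 (by simp [hv1]))
    have : Nontrivial (ℝ ∙ v)ᗮ := Module.nontrivial_of_finrank_eq_succ hF
    have hshadow := shadow_bound k hR hv1 hfin (H v hv1) hP hPc hr hball (s := s) (g := g)
      (fun u hu => le_of_eq (by
        rw [harea u hu, Finset.sum_div]
        exact Finset.sum_congr rfl fun z _ => by simp only [hg]; ring)) (hcd v hv1) (hne v hv1)
    refine le_trans (mul_le_mul_of_nonneg_left ?_ hR) hshadow
    refine F_pow_ge k (hm v hv1) hV (sub_nonneg.2 (hcd v hv1)) ?_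
    have h := layer k (concaveOn_vroot_hslice v hP hPc (hne v hv1)) (fun t _ => vroot_nonneg _)
      (hmax v hv1) (hx₀ v hv1) rfl
    rw [← hvol v hv1] at h
    exact h
  have hfs := facet_sum s' k A M w S (fun v _ => facet_nonneg s b v)
    (fun v hv => pow_pos (hm v (hs1 v (hmem v hv).1)) _)
    (fun v hv => sub_nonneg.2 (hcd v (hs1 v (hmem v hv).1))) hR hV hγ hwV hAM hS
  refine hfs.trans ?_
  have hzv := zono_volume hs1 (g := g) fun v _ => by
    have := facet_nonneg s b v; simp only [hg, hA]; positivity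
  rw [hrest S, div_le_iff₀ (by positivity), mul_comm]
  have hsub : Z ⊆ projBody P := fun x hx u hu => by
    refine (inner_zono_le (fun v _ => ?_) hx u).trans (le_of_eq ?_)
    · have := facet_nonneg s b v; simp only [hg, hA]; positivity
    · rw [harea u hu, Finset.sum_div]
      exact Finset.sum_congr rfl fun z _ => by simp only [hg]; ring
  have h1 : volume.real Z ≤ volume.real (projBody P) :=
    measureReal_mono hsub (isCompact_projBody P).measure_lt_top.ne
  have e3 : 2 * ∑ v ∈ s, g v * area Z v = ∑ v ∈ s, A v * S v := by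
    rw [Finset.mul_sum]; exact Finset.sum_congr rfl fun v _ => by simp only [hg, hS']; ring
  rw [e3, hfin] at hzv
  push_cast at hzv
  exact hzv.trans (mul_le_mul_of_nonneg_left h1 (by positivity))

end Vale.Agent.P237.AllN
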