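import Vale.Agent.P237.AllN.Zono
import Vale.Agent.P237.AllN.Layer
import Vale.Agent.P237.AllN.Tangent

/-!
# Shadows of the projection body through sections
-/

namespace Vale.Agent.P237.AllN

set_option linter.unusedSectionVars false

open MeasureTheory Set Module Function Filter
open scoped RealInnerProductSpace ENNReal Pointwise Topology

variable {E : Type*} [NormedAddCommGroup E] [InnerProductSpace ℝ E] [FiniteDimensional ℝ E]

/-- The orthogonal projection to a hyperplane, with coordinates. -/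
theorem coe_proj {w : E} (hw : ‖w‖ = 1) (x : E) :
    ((ℝ ∙ w)ᗮ.orthogonalProjectionOnto x : E) = x - ⟪w, x⟫ • w :=
  eq_sub_of_add_eq (glue_proj hw x)

theorem mem_perp_of_perp {v : E} (w : (ℝ ∙ v)ᗮ) : v ∈ (ℝ ∙ (w : E))ᗮ :=
  Submodule.mem_orthogonal_singleton_iff_inner_left.2 (perp_inner v w)

/-- The two iterated hyperplanes of a pair of orthogonal vectors. -/
noncomputable def nest (v : E) (w : (ℝ ∙ v)ᗮ) :
    (ℝ ∙ w)ᗮ ≃ₗᵢ[ℝ] (ℝ ∙ (⟨v, mem_perp_of_perp w⟩ : (ℝ ∙ (w : E))ᗮ))ᗮ where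
  toFun x := ⟨⟨((x : (ℝ ∙ v)ᗮ) : E), Submodule.mem_orthogonal_singleton_iff_inner_right.2
      (perp_inner w x)⟩,
    Submodule.mem_orthogonal_singleton_iff_inner_right.2 (perp_inner v x.1)⟩
  invFun x := ⟨⟨((x : (ℝ ∙ (w : E))ᗮ) : E), Submodule.mem_orthogonal_singleton_iff_inner_right.2
      (perp_inner (⟨v, mem_perp_of_perp w⟩ : (ℝ ∙ (w : E))ᗮ) x)⟩,
    Submodule.mem_orthogonal_singleton_iff_inner_right.2 (perp_inner (w : E) x.1)⟩
  map_add' _ _ := rfl
  map_smul' _ _ := rfl
  left_inv _ := rfl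
  right_inv _ := rfl
  norm_map' _ := rfl

variable [MeasurableSpace E] [BorelSpace E]

/-- Projecting a section lies in the section of the projection. -/
theorem section_shadow_le {v : E} (w : (ℝ ∙ v)ᗮ) (hw : ‖w‖ = 1) {X : Set E}
    (hX : IsCompact X) (t : ℝ) :
    volume ((ℝ ∙ w)ᗮ.orthogonalProjectionOnto '' hslice v X t) ≤
      volume (hslice (⟨v, mem_perp_of_perp w⟩ : (ℝ ∙ (w : E))ᗮ)
        ((ℝ ∙ (w : E))ᗮ.orthogonalProjectionOnto '' X) t) := by
  have hw' : ‖(w : E)‖ = 1 := hw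
  set A := (ℝ ∙ w)ᗮ.orthogonalProjectionOnto '' hslice v X t
  have hA : IsCompact A := (isCompact_hslice v hX t).image (ContinuousLinearMap.continuous _)
  rw [← (nest v w).injective.preimage_image A, (nest v w).measurePreserving.measure_preimage
    (hA.image (nest v w).continuous).measurableSet.nullMeasurableSet]
  refine measure_mono ?_
  rintro _ ⟨_, ⟨y, hy, rfl⟩, rfl⟩
  refine ⟨(y : E) + t • v, hy, Subtype.ext ?_⟩
  rw [coe_proj hw']
  show _ = (((ℝ ∙ w)ᗮ.orthogonalProjectionOnto y : (ℝ ∙ v)ᗮ) : E) + t • v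
  have e : ⟪(w : E), v⟫ = 0 := by rw [real_inner_comm]; exact perp_inner v w
  rw [coe_proj hw y, inner_add_right, real_inner_smul_right, e, Submodule.coe_inner]
  push_cast
  module

/-- Layers of sections give a lower bound for the shadow. -/
theorem sections_le_area {v : E} (hv : ‖v‖ = 1) (w : (ℝ ∙ v)ᗮ) (hw : ‖w‖ = 1) {X : Set E}
    (hX : IsCompact X) {a : ℕ → ℝ} (ha : Monotone a) {U : ℕ → Set (ℝ ∙ v)ᗮ} {N : ℕ}
    (hU : ∀ j < N, ∀ t ∈ Ioc (a j) (a (j + 1)), U j ⊆ hslice v X t) :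
    ∑ j ∈ Finset.range N, (a (j + 1) - a j) * area (U j) w ≤ area X (w : E) := by
  set v' : (ℝ ∙ (w : E))ᗮ := ⟨v, mem_perp_of_perp w⟩
  set Y := (ℝ ∙ (w : E))ᗮ.orthogonalProjectionOnto '' X with hYdef
  have hY : IsCompact Y := hX.image (ContinuousLinearMap.continuous _)
  set p : ℕ → ℝ≥0∞ := fun j => volume ((ℝ ∙ w)ᗮ.orthogonalProjectionOnto '' U j)
  have key : ∀ M ≤ N, ∑ j ∈ Finset.range M, ENNReal.ofReal (a (j + 1) - a j) * p j ≤
      ∫⁻ t in Ioc (a 0) (a M), volume (hslice v' Y t) := by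
    intro M
    induction M with
    | zero => simp
    | succ M ih =>
      intro hM
      rw [Finset.sum_range_succ, ← Ioc_union_Ioc_eq_Ioc (ha (Nat.zero_le M)) (ha (Nat.le_succ M)),
        lintegral_union measurableSet_Ioc (Ioc_disjoint_Ioc_of_le le_rfl)]
      refine add_le_add (ih (by omega)) ?_
      rw [mul_comm, ← Real.volume_Ioc, ← setLIntegral_const]
      refine setLIntegral_mono' measurableSet_Ioc fun t ht => ?_
      exact (measure_mono (image_mono (hU M (by omega) t ht))).trans (section_shadow_le w hw hX t)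
  have hle := (key N le_rfl).trans ((setLIntegral_le_lintegral _ _).trans_eq
    (volume_eq_slices (v := v') hv hY.measurableSet).symm)
  have h := ENNReal.toReal_mono hY.measure_lt_top.ne hle
  rw [ENNReal.toReal_sum fun j hj => ne_top_of_le_ne_top hY.measure_lt_top.ne
    ((Finset.single_le_sum (fun i _ => zero_le) hj).trans hle)] at h
  refine le_of_eq_of_le (Finset.sum_congr rfl fun j _ => ?_) h
  rw [ENNReal.toReal_mul, ENNReal.toReal_ofReal (sub_nonneg.2 (ha (Nat.le_succ j)))]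
  rfl

/-- The shadow of the zonotope of a body dominates the integral of the powers of the sections. -/
theorem shadow_bound (k : ℕ) {R : ℝ} (hR : 0 ≤ R) {v : E} (hv : ‖v‖ = 1)
    (hfin : finrank ℝ E = k + 2)
    (H : ∀ L : Set (ℝ ∙ v)ᗮ, IsCompact L → Convex ℝ L →
      R * volume.real L ^ k ≤ volume.real (projBody L))
    {X : Set E} (hX : IsCompact X) (hXc : Convex ℝ X) {r : ℝ} (hr : 0 < r)
    (hball : Metric.closedBall 0 r ⊆ X) {s : Finset E} {g : E → ℝ}
    (hsupp : ∀ u : E, ‖u‖ = 1 → area X u ≤ ∑ z ∈ s, g z * |⟪z, u⟫|)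
    {c d : ℝ} (hcd : c ≤ d) (hne : ∀ t ∈ Icc c d, (hslice v X t).Nonempty) :
    R * (∫ t in c..d, vroot (hslice v X t) ^ k) ^ (k + 1) ≤ area (zono s g) v := by
  have : Fact (finrank ℝ E = (k + 1) + 1) := ⟨hfin⟩
  have hF : finrank ℝ (ℝ ∙ v)ᗮ = k + 1 :=
    Submodule.finrank_orthogonal_span_singleton (norm_ne_zero_iff.1 (by simp [hv]))
  have : Nontrivial (ℝ ∙ v)ᗮ := Module.nontrivial_of_finrank_eq_succ hF
  set W := (ℝ ∙ v)ᗮ.orthogonalProjectionOnto '' zono s g with hW
  have hWc : IsCompact W := (isCompact_zono s g).image (ContinuousLinearMap.continuous _)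
  have hW0 : (0 : (ℝ ∙ v)ᗮ) ∈ W := ⟨0, zero_mem_zono s g, map_zero _⟩
  have hWcv : Convex ℝ W := (convex_zono s g).linear_image
    ((ℝ ∙ v)ᗮ.orthogonalProjectionOnto : E →L[ℝ] (ℝ ∙ v)ᗮ).toLinearMap
  set ρ : ℝ := R ^ (((k + 1 : ℕ) : ℝ)⁻¹) with hρdef
  have hρ : 0 ≤ ρ := Real.rpow_nonneg hR _
  have hρp : ρ ^ (k + 1) = R := Real.rpow_inv_natCast_pow hR (by omega)
  have hroot : ∀ U : Set (ℝ ∙ v)ᗮ, IsCompact U → Convex ℝ U →
      ρ * vroot U ^ k ≤ vroot (projBody U) := by
    intro U hU hUc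
    refine le_of_pow_le_pow_left₀ (n := k + 1) (by omega) (vroot_nonneg _) ?_
    rw [mul_pow, hρp, ← pow_mul, mul_comm k, pow_mul]
    rw [show k + 1 = finrank ℝ (ℝ ∙ v)ᗮ from hF.symm, vroot_pow, vroot_pow]
    exact H U hU hUc
  set F := ∫ t in c..d, vroot (hslice v X t) ^ k with hF'
  -- the bound for each shrinking factor
  have main : ∀ θ : ℝ, 0 < θ → θ < 1 → ρ * θ ^ (k + 1) * F ≤ vroot W := by
    intro θ hθ hθ1
    obtain ⟨N, hN⟩ := exists_nat_gt (θ * (d - c) / ((1 - θ) * r))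
    have hN0 : (0 : ℝ) < N := lt_of_le_of_lt
      (div_nonneg (mul_nonneg hθ.le (sub_nonneg.2 hcd)) (mul_nonneg (by linarith) hr.le)) hN
    set h := (d - c) / N with hh
    have hh0 : 0 ≤ h := div_nonneg (sub_nonneg.2 hcd) hN0.le
    have hθh : θ * h ≤ (1 - θ) * r := by
      rw [div_lt_iff₀ (by nlinarith)] at hN
      rw [hh, mul_div_assoc', div_le_iff₀ hN0]
      linarith
    set q : ℕ → ℝ := fun j => c + j * h with hq
    set a : ℕ → ℝ := fun j => θ * q j with ha
    have hqm : Monotone q := fun i j hij => by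
      have : (i : ℝ) * h ≤ j * h := mul_le_mul_of_nonneg_right (by exact_mod_cast hij) hh0
      simp only [hq]; linarith
    have ham : Monotone a := fun i j hij => mul_le_mul_of_nonneg_left (hqm hij) hθ.le
    have hqN : q N = d := by simp only [hq, hh]; field_simp; ring
    have hq0 : q 0 = c := by simp [hq]
    have hgap : ∀ j, q (j + 1) - q j = h := fun j => by simp [hq]; ring
    set U : ℕ → Set (ℝ ∙ v)ᗮ := fun j => hslice v X (a j) ∩ hslice v X (a (j + 1)) with hU
    have hUc : ∀ j, IsCompact (U j) := fun j =>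
      (isCompact_hslice v hX _).inter (isCompact_hslice v hX _)
    have hUv : ∀ j, Convex ℝ (U j) := fun j => (convex_hslice v hXc _).inter (convex_hslice v hXc _)
    have hshift : ∀ t x : ℝ, |x - θ * t| ≤ (1 - θ) * r → θ • hslice v X t ⊆ hslice v X x := by
      rintro t x hx _ ⟨y, hy, rfl⟩
      have hz : ((x - θ * t) / (1 - θ)) • v ∈ X := hball (mem_closedBall_zero_iff.2 (by
        rw [norm_smul, hv, mul_one, Real.norm_eq_abs, abs_div, abs_of_pos (by linarith : 0 < 1 - θ),
          div_le_iff₀ (by linarith)]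
        linarith))
      have := hXc hy hz hθ.le (by linarith : 0 ≤ 1 - θ) (by ring)
      show ((θ • y : (ℝ ∙ v)ᗮ) : E) + x • v ∈ X
      convert this using 1
      rw [smul_smul, mul_div_cancel₀ _ (by linarith : (1 : ℝ) - θ ≠ 0)]
      push_cast
      module
    have hin : ∀ j, ∀ t ∈ Icc (q j) (q (j + 1)), θ • hslice v X t ⊆ U j := by
      intro j t ht
      have h1 := mul_le_mul_of_nonneg_left ht.1 hθ.le
      have h2 := mul_le_mul_of_nonneg_left ht.2 hθ.le
      have h3 : θ * q (j + 1) - θ * q j = θ * h := by rw [← mul_sub, hgap]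
      refine subset_inter (hshift _ _ (abs_le.2 ⟨?_, ?_⟩)) (hshift _ _ (abs_le.2 ⟨?_, ?_⟩)) <;>
        simp only [ha] <;> linarith
    have hmem : ∀ j < N, Icc (q j) (q (j + 1)) ⊆ Icc c d := fun j hj =>
      Icc_subset_Icc (hq0 ▸ hqm (Nat.zero_le j)) (hqN ▸ hqm hj)
    have hUn : ∀ j < N, (U j).Nonempty := fun j hj =>
      ((hne _ (hmem j hj ⟨le_rfl, hqm (Nat.le_succ j)⟩)).smul_set (a := θ)).mono
        (hin j _ ⟨le_rfl, hqm (Nat.le_succ j)⟩)
    -- integrability and the sum
    obtain ⟨x₀, -, hmax⟩ := exists_max_hslice v hX hcd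
    have hint : IntervalIntegrable (fun t => vroot (hslice v X t) ^ k) volume c d :=
      integrable_pow hcd (concaveOn_vroot_hslice v hX hXc hne) (fun t _ => vroot_nonneg _)
        hmax k
    have hsum : θ ^ (k + 1) * F ≤ ∑ j ∈ Finset.range N, θ * h * vroot (U j) ^ k := by
      have hi : ∀ j < N, IntervalIntegrable (fun t => vroot (hslice v X t) ^ k) volume (q j)
          (q (j + 1)) := fun j hj => hint.mono_set (by
        rw [uIcc_of_le hcd, uIcc_of_le (hqm (Nat.le_succ j))]; exact hmem j hj)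
      have hsplit := intervalIntegral.sum_integral_adjacent_intervals (a := q) hi
      rw [hq0, hqN] at hsplit
      rw [hF', ← hsplit, Finset.mul_sum]
      refine Finset.sum_le_sum fun j hj => ?_
      rw [← intervalIntegral.integral_const_mul]
      refine (intervalIntegral.integral_mono_on (hqm (Nat.le_succ j))
        ((hi j (Finset.mem_range.1 hj)).const_mul _) intervalIntegrable_const fun t ht => ?_).trans
        (le_of_eq (by rw [intervalIntegral.integral_const, hgap, smul_eq_mul,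
          show h * (θ * vroot (U j) ^ k) = θ * h * vroot (U j) ^ k by ring]))
      rw [pow_succ', mul_assoc, ← mul_pow, ← vroot_smul hθ.le]
      exact mul_le_mul_of_nonneg_left
        (pow_le_pow_left₀ (vroot_nonneg _) (vroot_mono (hUc j) (hin j t ht)) k) hθ.le
    -- the inclusion
    set B : ℕ → Set (ℝ ∙ v)ᗮ := fun j => (θ * h) • projBody (U j) with hB
    have hBc : ∀ j ∈ Finset.range N, IsCompact (B j) := fun j _ => (isCompact_projBody _).smul _
    have hBn : ∀ j ∈ Finset.range N, (B j).Nonempty := fun j _ =>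
      (Set.Nonempty.smul_set ⟨0, zero_mem_projBody _⟩)
    have hsub : ∑ j ∈ Finset.range N, B j ⊆ W := by
      intro x hx
      obtain ⟨y, hy, rfl⟩ := (Set.mem_finsetSum _ _ _).1 hx
      by_contra hnot
      obtain ⟨f, b, hfb, hfx⟩ := geometric_hahn_banach_closed_point hWcv hWc.isClosed hnot
      set w₀ := (InnerProductSpace.toDual ℝ (ℝ ∙ v)ᗮ).symm f
      have hf : ∀ z, ⟪w₀, z⟫ = f z := fun z => InnerProductSpace.toDual_symm_apply
      have hw0 : w₀ ≠ 0 := by
        intro h0
        have h1 := hfb 0 hW0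
        rw [← hf, h0, inner_zero_left] at h1 hfx
        linarith
      set w := ‖w₀‖⁻¹ • w₀ with hwdef
      have hw : ‖w‖ = 1 := norm_smul_inv_norm hw0
      have hwi : 0 < ‖w₀‖⁻¹ := inv_pos.2 (norm_pos_iff.2 hw0)
      obtain ⟨z, hz, hzw⟩ := exists_inner_zono s g (w : E)
      have h1 : ⟪z, (w : E)⟫ < ⟪∑ j ∈ Finset.range N, y j, w⟫ := by
        have hb := hfb _ (mem_image_of_mem (ℝ ∙ v)ᗮ.orthogonalProjectionOnto hz)
        have e : ⟪z, (w : E)⟫ = ‖w₀‖⁻¹ * f ((ℝ ∙ v)ᗮ.orthogonalProjectionOnto z) := by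
          rw [← hf, ← real_inner_smul_left, ← hwdef,
            Submodule.inner_orthogonalProjectionOnto_eq_of_mem_left, real_inner_comm]
        rw [e, real_inner_comm, hwdef, real_inner_smul_left, hf]
        exact mul_lt_mul_of_pos_left (hb.trans hfx) hwi
      have h2 : ⟪∑ j ∈ Finset.range N, y j, w⟫ ≤
          ∑ j ∈ Finset.range N, (a (j + 1) - a j) * area (U j) w := by
        rw [sum_inner]
        refine Finset.sum_le_sum fun j hj => ?_
        obtain ⟨p, hp, hpe⟩ := hy hj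
        rw [← hpe, real_inner_smul_left, show a (j + 1) - a j = θ * h by
          simp only [ha]; rw [← mul_sub, hgap]]
        exact mul_le_mul_of_nonneg_left (hp w hw) (mul_nonneg hθ.le hh0)
      have h3 := sections_le_area hv w hw hX ham (U := U) (N := N) (fun j _ t ht y hy => by
        obtain ⟨p, p', hp, hp', hpp, he⟩ : t ∈ segment ℝ (a j) (a (j + 1)) := by
          rw [segment_eq_Icc (ham (Nat.le_succ j))]; exact Ioc_subset_Icc_self ht
        have := hXc hy.1 hy.2 hp hp' hpp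
        show (y : E) + t • v ∈ X
        convert this using 1
        rw [← he]
        simp only [smul_eq_mul, smul_add, smul_smul, add_smul]
        have e : p • (y : E) + p' • (y : E) = (y : E) := by rw [← add_smul, hpp, one_smul]
        conv_lhs => rw [← e]
        abel)
      have h4 := hsupp (w : E) hw
      rw [← hzw] at h4
      linarith
    calc ρ * θ ^ (k + 1) * F ≤ ρ * ∑ j ∈ Finset.range N, θ * h * vroot (U j) ^ k := by
          rw [mul_assoc]; exact mul_le_mul_of_nonneg_left hsum hρ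
      _ ≤ ∑ j ∈ Finset.range N, vroot (B j) := by
          rw [Finset.mul_sum]
          refine Finset.sum_le_sum fun j hj => ?_
          rw [hB, vroot_smul (mul_nonneg hθ.le hh0),
            show ρ * (θ * h * vroot (U j) ^ k) = θ * h * (ρ * vroot (U j) ^ k) by ring]
          exact mul_le_mul_of_nonneg_left (hroot _ (hUc j) (hUv j)) (mul_nonneg hθ.le hh0)
      _ ≤ vroot (∑ j ∈ Finset.range N, B j) := (vroot_sum _ B hBc hBn).2.2
      _ ≤ vroot W := vroot_mono hWc hsub
  -- let the factor tend to one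
  have hlim : ρ * F ≤ vroot W := by
    refine le_of_tendsto (f := fun θ : ℝ => ρ * θ ^ (k + 1) * F) (x := 𝓝[<] (1 : ℝ)) ?_ ?_
    · exact (Continuous.tendsto' (by fun_prop) 1 _ (by simp)).mono_left nhdsWithin_le_nhds
    · filter_upwards [Ioo_mem_nhdsLT zero_lt_one] with θ hθ using main θ hθ.1 hθ.2
  have hF0 : 0 ≤ F := intervalIntegral.integral_nonneg hcd fun t _ => pow_nonneg (vroot_nonneg _) k
  have h := pow_le_pow_left₀ (mul_nonneg hρ hF0) hlim (k + 1)
  rw [mul_pow, hρp] at h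
  refine h.trans_eq ?_
  rw [← hF, vroot_pow]
  rfl

end Vale.Agent.P237.AllN
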