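import Vale.Agent.P237.AllN.Defs

/-!
# Zonotopes: support function and volume through shadows
-/

namespace Vale.Agent.P237.AllN

open MeasureTheory Set Module Function
open scoped RealInnerProductSpace ENNReal Pointwise

variable {E : Type*} [NormedAddCommGroup E] [InnerProductSpace ℝ E]

/-- The zonotope with segments `[-g v • v, g v • v]`. -/
def zono (s : Finset E) (g : E → ℝ) : Set E :=
  (fun c : E → ℝ => ∑ v ∈ s, (c v * g v) • v) '' univ.pi fun _ => Icc (-1 : ℝ) 1

theorem isCompact_zono (s : Finset E) (g : E → ℝ) : IsCompact (zono s g) :=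
  (isCompact_univ_pi fun _ => isCompact_Icc).image
    (continuous_finsetSum _ fun v _ => ((continuous_apply v).mul continuous_const).smul
      continuous_const)

theorem convex_zono (s : Finset E) (g : E → ℝ) : Convex ℝ (zono s g) :=
  (convex_pi fun _ _ => convex_Icc (-1 : ℝ) 1).is_linear_image
    ⟨fun c d => by simp [add_mul, add_smul, Finset.sum_add_distrib],
     fun t c => by simp [mul_assoc, mul_smul, Finset.smul_sum]⟩

theorem zero_mem_zono (s : Finset E) (g : E → ℝ) : (0 : E) ∈ zono s g :=
  ⟨0, fun v _ => ⟨by simp, by simp⟩, by simp⟩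

theorem inner_zono_le {s : Finset E} {g : E → ℝ} (hg : ∀ v ∈ s, 0 ≤ g v) {x : E}
    (hx : x ∈ zono s g) (w : E) : ⟪x, w⟫ ≤ ∑ v ∈ s, g v * |⟪v, w⟫| := by
  obtain ⟨c, hc, rfl⟩ := hx
  rw [sum_inner]
  refine Finset.sum_le_sum fun v hv => ?_
  rw [real_inner_smul_left]
  refine (le_abs_self _).trans ?_
  rw [abs_mul, abs_mul, abs_of_nonneg (hg v hv)]
  exact mul_le_mul_of_nonneg_right
    (mul_le_of_le_one_left (hg v hv) (abs_le.2 (hc v (mem_univ v)))) (abs_nonneg _)

theorem exists_inner_zono (s : Finset E) (g : E → ℝ) (w : E) :
    ∃ x ∈ zono s g, ⟪x, w⟫ = ∑ v ∈ s, g v * |⟪v, w⟫| := by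
  refine ⟨_, ⟨fun v => if 0 ≤ ⟪v, w⟫ then 1 else -1, fun v _ => ?_, rfl⟩, ?_⟩
  · dsimp only; split_ifs <;> norm_num
  · rw [sum_inner]
    refine Finset.sum_congr rfl fun v _ => ?_
    rw [real_inner_smul_left]
    dsimp only
    split_ifs with h
    · rw [abs_of_nonneg h]; ring
    · rw [abs_of_neg (not_le.1 h)]; ring

theorem zono_mono {s : Finset E} {g g' : E → ℝ} (hg : ∀ v ∈ s, 0 ≤ g v)
    (h : ∀ v ∈ s, g v ≤ g' v) : zono s g ⊆ zono s g' := by
  classical
  rintro _ ⟨c, hc, rfl⟩
  refine ⟨fun v => if v ∈ s then c v * (g v / g' v) else 0, fun v _ => ?_, ?_⟩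
  · dsimp only
    split_ifs with hv
    · refine abs_le.1 ?_
      rw [abs_mul]
      refine mul_le_one₀ (abs_le.2 (hc v (mem_univ v))) (abs_nonneg _) ?_
      rw [abs_of_nonneg (div_nonneg (hg v hv) ((hg v hv).trans (h v hv)))]
      exact div_le_one_of_le₀ (h v hv) ((hg v hv).trans (h v hv))
    · norm_num
  · refine Finset.sum_congr rfl fun v hv => ?_
    congr 1
    simp only [if_pos hv]
    rcases ((hg v hv).trans (h v hv)).eq_or_lt with h0 | h0
    · rw [← h0, le_antisymm ((h v hv).trans h0.ge) (hg v hv)]
      simp
    · field_simp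

theorem smul_zono (s : Finset E) (g : E → ℝ) (r : ℝ) :
    zono s (fun v => r * g v) = r • zono s g := by
  simp only [zono, ← image_smul, image_image, Finset.smul_sum, smul_smul]
  refine image_congr fun c _ => Finset.sum_congr rfl fun v _ => ?_
  ring_nf

variable [FiniteDimensional ℝ E] [MeasurableSpace E] [BorelSpace E]

/-- Adding a segment increases the volume by the length times the shadow. -/
theorem segment_gain {v : E} (hv : ‖v‖ = 1) {X X' : Set E} (hX : IsCompact X) (hX' : IsCompact X')
    {d : ℝ} (hd : 0 ≤ d) (h : ∀ x ∈ X, ∀ t ∈ Icc (-d) d, x + t • v ∈ X') :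
    volume.real X + 2 * d * area X v ≤ volume.real X' := by
  set P := (ℝ ∙ v)ᗮ.orthogonalProjectionOnto '' X with hP
  have hPc : IsCompact P := hX.image (ContinuousLinearMap.continuous _)
  have key : volume X + ENNReal.ofReal (2 * d) * volume P ≤ volume X' := by
    rw [volume_eq_lines hv hX.measurableSet, volume_eq_lines hv hX'.measurableSet,
      ← setLIntegral_const, ← lintegral_indicator hPc.measurableSet,
      ← lintegral_add_right _ (measurable_const.indicator hPc.measurableSet)]
    refine lintegral_mono fun y => ?_
    set T := {t : ℝ | glue v (y, t) ∈ X}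
    by_cases hy : y ∈ P
    · rw [indicator_of_mem hy]
      have hne : T.Nonempty := by
        obtain ⟨x, hx, rfl⟩ := hy
        exact ⟨⟪v, x⟫, by show glue v _ ∈ X; rwa [glue_proj hv x]⟩
      have hT : IsCompact T := by
        refine (hX.image (f := fun x => ⟪v, x⟫) (by fun_prop)).of_isClosed_subset
          (hX.isClosed.preimage ((continuous_glue v).comp (by fun_prop)))
          fun t ht => ⟨_, ht, inner_glue hv (y, t)⟩
      obtain ⟨m, hm, hmax⟩ := hT.exists_isMaxOn hne continuousOn_id
      have hsub : (fun t => t + d) ⁻¹' T ∪ Ioc (m - d) (m + d) ⊆ {t | glue v (y, t) ∈ X'} := by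
        rintro t (ht | ht)
        · show glue v (y, t) ∈ X'
          convert h _ ht (-d) ⟨le_rfl, by linarith⟩ using 1
          simp only [glue]
          module
        · show glue v (y, t) ∈ X'
          convert h _ hm (t - m) ⟨by linarith [ht.1], by linarith [ht.2]⟩ using 1
          simp only [glue]
          module
      refine le_trans ?_ (measure_mono hsub)
      rw [measure_union (Set.disjoint_left.2 fun t ht ht' => ?_) measurableSet_Ioc,
        measure_preimage_add_right, Real.volume_Ioc, show m + d - (m - d) = 2 * d by ring]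
      have : t + d ≤ m := hmax ht
      linarith [ht'.1]
    · rw [indicator_of_notMem hy, add_zero]
      refine measure_mono fun t ht => ?_
      show glue v (y, t) ∈ X'
      simpa [glue] using h _ ht 0 ⟨by linarith, hd⟩
  have h1 := ENNReal.toReal_mono hX'.measure_lt_top.ne key
  rwa [ENNReal.toReal_add hX.measure_lt_top.ne
    (ENNReal.mul_ne_top ENNReal.ofReal_ne_top hPc.measure_lt_top.ne),
    ENNReal.toReal_mul, ENNReal.toReal_ofReal (by linarith)] at h1

/-- The dimension times the volume of a zonotope is at least the sum of the segment lengths times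
the shadows along them. -/
theorem zono_volume {s : Finset E} {g : E → ℝ} (hs1 : ∀ v ∈ s, ‖v‖ = 1)
    (hg : ∀ v ∈ s, 0 ≤ g v) :
    2 * ∑ v ∈ s, g v * area (zono s g) v ≤ (finrank ℝ E : ℝ) * volume.real (zono s g) := by
  classical
  set Z := zono s g with hZ
  set n := finrank ℝ E with hn
  set x := ∑ v ∈ s, g v * area Z v with hx
  have hx0 : 0 ≤ x := Finset.sum_nonneg fun v hv => mul_nonneg (hg v hv) (area_nonneg _ _)
  have main : ∀ δ : ℝ, 0 < δ → volume.real Z + 2 * δ * x ≤ (1 + δ) ^ n * volume.real Z := by
    intro δ hδ
    set G : Finset E → E → ℝ := fun T v => if v ∈ T then (1 + δ) * g v else g v with hG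
    have hgG : ∀ T, ∀ v ∈ s, g v ≤ G T v := fun T v hv => by
      simp only [hG]; split_ifs <;> nlinarith [hg v hv]
    have step : ∀ T ⊆ s, volume.real Z + 2 * δ * ∑ v ∈ T, g v * area Z v ≤
        volume.real (zono s (G T)) := by
      intro T
      induction T using Finset.induction with
      | empty => intro _; simp [hG, hZ]
      | insert a T ha ih =>
        intro hs
        have has : a ∈ s := hs (Finset.mem_insert_self a T)
        have h1 := ih fun v hv => hs (Finset.mem_insert_of_mem hv)
        have h2 := segment_gain (hs1 a has) (isCompact_zono s (G T))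
          (isCompact_zono s (G (insert a T))) (mul_nonneg hδ.le (hg a has)) (by
            rintro _ ⟨c, hc, rfl⟩ t ht
            rcases (hg a has).eq_or_lt with h0 | h0
            · rw [← h0, mul_zero, neg_zero, Icc_self, mem_singleton_iff] at ht
              rw [ht, zero_smul, add_zero]
              exact zono_mono (fun v hv => (hg v hv).trans (hgG T v hv)) (fun v hv => by
                simp only [hG]
                rcases eq_or_ne v a with rfl | hne
                · simp [ha, ← h0]
                · simp [hne]) ⟨c, hc, rfl⟩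
            · refine ⟨update c a ((c a * g a + t) / ((1 + δ) * g a)), fun v _ => ?_, ?_⟩
              · rcases eq_or_ne v a with rfl | hne
                · rw [update_self]
                  have hp : 0 < (1 + δ) * g v := by positivity
                  have hc' : (-1 : ℝ) ≤ c v ∧ c v ≤ 1 := hc v (mem_univ v)
                  have := hc'.1
                  have := hc'.2
                  have := ht.1
                  have := ht.2
                  constructor
                  · rw [le_div_iff₀ hp]; nlinarith
                  · rw [div_le_iff₀ hp]; nlinarith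
                · rw [update_of_ne hne]; exact hc v (mem_univ v)
              · show ∑ v ∈ s, _ = ∑ v ∈ s, _ + t • a
                rw [← Finset.add_sum_erase s _ has, ← Finset.add_sum_erase s _ has, add_right_comm,
                  ← add_smul]
                congr 1
                · congr 1
                  simp only [hG, update_self, Finset.mem_insert_self, if_true, if_neg ha]
                  field_simp
                · refine Finset.sum_congr rfl fun v hv => ?_
                  have hne := (Finset.mem_erase.1 hv).1
                  simp [hG, hne])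
        have h3 : area Z a ≤ area (zono s (G T)) a :=
          area_mono (isCompact_zono _ _) (zono_mono hg (hgG T)) a
        have h4 := mul_le_mul_of_nonneg_left h3
          (show 0 ≤ 2 * (δ * g a) by have := hg a has; positivity)
        rw [Finset.sum_insert ha]
        linarith
    refine (step s subset_rfl).trans (le_of_eq ?_)
    have e : zono s (G s) = (1 + δ) • Z := by
      rw [hZ, ← smul_zono]
      refine image_congr fun c _ => Finset.sum_congr rfl fun v hv => ?_
      simp [hG, hv]
    rw [e, measureReal_def, Measure.addHaar_smul, ENNReal.toReal_mul,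
      ENNReal.toReal_ofReal (abs_nonneg _), abs_of_nonneg (by positivity), ← measureReal_def]
  by_contra hlt
  rw [not_le] at hlt
  have hxp : 0 < x := by
    by_contra h0
    have : (0 : ℝ) ≤ (n : ℝ) * volume.real Z := mul_nonneg (Nat.cast_nonneg _) measureReal_nonneg
    linarith
  set δ : ℝ := min (1 / (n + 1 : ℝ)) ((2 * x - n * volume.real Z) / (4 * (n + 1) * x)) with hδdef
  have hδ : 0 < δ := lt_min (by positivity) (by have := sub_pos.2 hlt; positivity)
  have hδ1 : δ * (n + 1) ≤ 1 := by
    have := min_le_left (1 / (n + 1 : ℝ)) ((2 * x - n * volume.real Z) / (4 * (n + 1) * x))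
    rwa [← hδdef, le_div_iff₀ (by positivity)] at this
  have hδ2 : δ * (4 * (n + 1) * x) ≤ 2 * x - n * volume.real Z := by
    have := min_le_right (1 / (n + 1 : ℝ)) ((2 * x - n * volume.real Z) / (4 * (n + 1) * x))
    rwa [← hδdef, le_div_iff₀ (by positivity)] at this
  have hd1 : δ ≤ 1 := by nlinarith [Nat.cast_nonneg (α := ℝ) n]
  have hb := one_add_mul_le_pow (a := -δ) (by linarith) n
  have hsq : (1 + δ) ^ n * (1 + -δ) ^ n ≤ 1 := by
    rw [← mul_pow]
    exact pow_le_one₀ (by nlinarith) (by nlinarith)
  have hm := main δ hδ
  have hV : 0 ≤ volume.real Z := measureReal_nonneg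
  have hfin : (volume.real Z + 2 * δ * x) * (1 + n * -δ) ≤ volume.real Z := by
    calc _ ≤ (1 + δ) ^ n * volume.real Z * (1 + -δ) ^ n :=
          mul_le_mul hm hb (by nlinarith) (by positivity)
      _ = (1 + δ) ^ n * (1 + -δ) ^ n * volume.real Z := by ring
      _ ≤ _ := mul_le_of_le_one_left hV hsq
  have key : 2 * x * (1 - n * δ) ≤ n * volume.real Z := by
    refine le_of_mul_le_mul_left ?_ hδ
    linarith
  nlinarith

end Vale.Agent.P237.AllN
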